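import Vale.Agent.Lib.P040.TP.Gen.Far.Closed

namespace Vale.Agent.Lib.P040.TP.Gen

theorem int_mul_succ_nonneg (D : ℤ) : 0 ≤ D * (D + 1) := by
  rcases le_or_gt 0 D with h | h
  · exact mul_nonneg h (by omega)
  · exact mul_nonneg_of_nonpos_of_nonpos (by omega) (by omega)

theorem ftr_le_mul (k D : ℤ) (hk : k ≤ D) : ftr k ≤ D * (D + 1) := by
  rcases le_or_gt k 0 with h | h
  · rw [ftr_of_nonpos k h]
    exact int_mul_succ_nonneg D
  · rw [ftr_of_nonneg k (by omega)]
    nlinarith [mul_nonneg (show (0 : ℤ) ≤ D - k by omega) (show (0 : ℤ) ≤ D + k + 1 by omega)]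

/-- Superadditivity of the triangular numbers. -/
theorem ftr_add_le (D k1 k2 : ℤ) (h1 : k1 ≤ D) (h2 : k2 ≤ D) (h12 : k1 + k2 + 1 ≤ D) :
    ftr k1 + ftr k2 ≤ D * (D + 1) := by
  rcases le_or_gt k1 0 with c1 | c1
  · rw [ftr_of_nonpos _ c1, zero_add]
    exact ftr_le_mul _ _ h2
  · rcases le_or_gt k2 0 with c2 | c2
    · rw [ftr_of_nonpos _ c2, add_zero]
      exact ftr_le_mul _ _ h1
    · rw [ftr_of_nonneg _ (by omega), ftr_of_nonneg _ (by omega)]
      nlinarith [mul_nonneg (show (0 : ℤ) ≤ D - k1 - k2 by omega)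
        (show (0 : ℤ) ≤ D + k1 + k2 + 1 by omega),
        mul_nonneg (show (0 : ℤ) ≤ k1 by omega) (show (0 : ℤ) ≤ k2 by omega)]

theorem ftr_shift_le (D γ w : ℤ) (hD : γ ≤ D) (hw : 0 ≤ w) :
    ftr (D - w) + ftr γ ≤ D * (D + 1) + ftr (γ - w) := by
  rcases le_or_gt γ 0 with hγ | hγ
  · rw [ftr_of_nonpos γ hγ, ftr_of_nonpos (γ - w) (by omega), add_zero, add_zero]
    exact ftr_le_mul _ _ (by omega)
  · rcases le_or_gt γ w with hwγ | hwγ
    · rw [ftr_of_nonpos (γ - w) (by omega), add_zero, ftr_of_nonneg γ (by omega)]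
      have h1 : ftr (D - w) ≤ (D - γ) * (D - γ + 1) := ftr_le_mul _ _ (by omega)
      nlinarith [mul_nonneg (show (0 : ℤ) ≤ D - γ by omega) (show (0 : ℤ) ≤ γ by omega)]
    · rw [ftr_of_nonneg γ (by omega), ftr_of_nonneg (γ - w) (by omega),
        ftr_of_nonneg (D - w) (by omega)]
      nlinarith [mul_nonneg hw (show (0 : ℤ) ≤ D - γ by omega)]

theorem fRc_of_nonpos (B C n : ℤ) (hC : C ≤ 0) : fRc B C n = 0 := by
  unfold fRc
  rw [max_eq_right hC]
  simp only [sub_zero]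
  ring

theorem fRc_le (B C n : ℤ) (hB : 0 ≤ B) : fRc B C n ≤ 2 * B * max C 0 := by
  unfold fRc
  have hc : (0 : ℤ) ≤ max C 0 := le_max_right _ _
  generalize max C 0 = c at hc ⊢
  generalize n - 1 = x
  rcases le_or_gt 0 (x - B - c) with h1 | h1
  · rw [ftr_of_nonneg x (by omega), ftr_of_nonneg (x - B) (by omega),
      ftr_of_nonneg (x - c) (by omega), ftr_of_nonneg (x - B - c) h1]
    have e : x * (x + 1) - (x - B) * (x - B + 1) - (x - c) * (x - c + 1)
        + (x - B - c) * (x - B - c + 1) = 2 * B * c := by ring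
    linarith
  · rw [ftr_of_nonpos (x - B - c) (by omega), add_zero]
    rcases le_or_gt 0 (x - B) with h2 | h2
    · rcases le_or_gt 0 (x - c) with h3 | h3
      · rw [ftr_of_nonneg x (by omega), ftr_of_nonneg (x - B) h2, ftr_of_nonneg (x - c) h3]
        nlinarith [mul_nonneg (show (0 : ℤ) ≤ -(x - B - c) - 1 by omega)
          (show (0 : ℤ) ≤ -(x - B - c) by omega)]
      · rw [ftr_of_nonneg x (by omega), ftr_of_nonneg (x - B) h2,
          ftr_of_nonpos (x - c) (by omega), sub_zero]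
        nlinarith [mul_nonneg hB (show (0 : ℤ) ≤ 2 * c - (2 * x - B + 1) by omega)]
    · rw [ftr_of_nonpos (x - B) (by omega), sub_zero]
      rcases le_or_gt 0 (x - c) with h3 | h3
      · rw [ftr_of_nonneg x (by omega), ftr_of_nonneg (x - c) h3]
        nlinarith [mul_nonneg hc (show (0 : ℤ) ≤ 2 * B - (2 * x - c + 1) by omega)]
      · rw [ftr_of_nonpos (x - c) (by omega), sub_zero]
        rcases le_or_gt x 0 with h4 | h4
        · rw [ftr_of_nonpos x h4]
          positivity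
        · rw [ftr_of_nonneg x (by omega)]
          nlinarith [mul_nonneg (show (0 : ℤ) ≤ B - 1 - x by omega) (show (0 : ℤ) ≤ x + 1 by omega),
            mul_nonneg (show (0 : ℤ) ≤ B - 1 by omega) (show (0 : ℤ) ≤ c - (x + 1) by omega),
            mul_nonneg hB hc]

theorem far_B1 (b cm up wp ω : ℤ) (hb : 0 ≤ b) (hcm : 0 ≤ cm) (hup : 0 ≤ up) (hwp : 0 ≤ wp)
    (hω : 0 ≤ ω) (hτ : ω + b + cm + 1 ≤ up + wp) :
    fRc b (cm - wp) (up - ω) + fRc cm (b - up) (wp - ω) ≤ 2 * b * cm := by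
  rcases le_or_gt (cm - wp) 0 with h1 | h1
  · rw [fRc_of_nonpos _ _ _ h1, zero_add]
    have h := fRc_le cm (b - up) (wp - ω) hcm
    have h2 : max (b - up) 0 ≤ b := by omega
    nlinarith [mul_le_mul_of_nonneg_left h2 hcm]
  · rcases le_or_gt (b - up) 0 with h2 | h2
    · rw [fRc_of_nonpos _ _ _ h2, add_zero]
      have h := fRc_le b (cm - wp) (up - ω) hb
      have h3 : max (cm - wp) 0 ≤ cm := by omega
      nlinarith [mul_le_mul_of_nonneg_left h3 hb]
    · omega

theorem far_B2 (a cp um wm ω τ : ℤ) (ha : 0 ≤ a) (hcp : 0 ≤ cp) (hum : 0 ≤ um) (hwm : 0 ≤ wm)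
    (hω : 0 ≤ ω) (hτ : 1 ≤ τ) (hs : um + wm = ω + a + cp - τ + 1) :
    fRc a (cp - wm) (um - ω) + fRc cp (a - um) (wm - ω) + ftr (a - τ) + ftr (cp - τ)
      ≤ (a + cp - τ) * (a + cp - τ + 1) := by
  have hR2 : 0 ≤ cp - wm → fRc a (cp - wm) (um - ω)
      = ftr (a + cp - τ - wm) - ftr (cp - τ - wm) - ftr (a - τ) := by
    intro h
    unfold fRc
    rw [max_eq_left h]
    have e1 : um - ω - 1 = a + cp - τ - wm := by linarith
    have e2 : um - ω - 1 - a = cp - τ - wm := by linarith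
    have e3 : um - ω - 1 - (cp - wm) = a - τ := by linarith
    have e4 : um - ω - 1 - a - (cp - wm) = -τ := by linarith
    rw [e4, e2, e3, e1, ftr_of_nonpos (-τ) (by omega)]
    ring
  have hR4 : 0 ≤ a - um → fRc cp (a - um) (wm - ω)
      = ftr (a + cp - τ - um) - ftr (a - τ - um) - ftr (cp - τ) := by
    intro h
    unfold fRc
    rw [max_eq_left h]
    have e1 : wm - ω - 1 = a + cp - τ - um := by linarith
    have e2 : wm - ω - 1 - cp = a - τ - um := by linarith
    have e3 : wm - ω - 1 - (a - um) = cp - τ := by linarith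
    have e4 : wm - ω - 1 - cp - (a - um) = -τ := by linarith
    rw [e4, e2, e3, e1, ftr_of_nonpos (-τ) (by omega)]
    ring
  rcases le_or_gt 0 (cp - wm) with c1 | c1
  · rcases le_or_gt 0 (a - um) with c2 | c2
    · rw [hR2 c1, hR4 c2]
      have h1 := ftr_add_le (a + cp - τ) (a + cp - τ - wm) (a + cp - τ - um) (by omega) (by omega)
        (by omega)
      have h2 := ftr_nonneg (cp - τ - wm)
      have h3 := ftr_nonneg (a - τ - um)
      linarith
    · rw [hR2 c1, fRc_of_nonpos _ _ _ (by omega)]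
      have h1 := ftr_shift_le (a + cp - τ) (cp - τ) wm (by omega) hwm
      linarith
  · rcases le_or_gt 0 (a - um) with c2 | c2
    · rw [hR4 c2, fRc_of_nonpos _ _ _ (by omega)]
      have h1 := ftr_shift_le (a + cp - τ) (a - τ) um (by omega) hum
      linarith
    · rw [fRc_of_nonpos _ _ _ (by omega), fRc_of_nonpos _ _ _ (by omega)]
      have h1 := ftr_add_le (a + cp - τ) (a - τ) (cp - τ) (by omega) (by omega) (by omega)
      linarith

theorem far_final_pos (a b cp cm up um wp wm ω τ : ℤ) (ha : 0 ≤ a) (hb : 0 ≤ b) (hcp : 0 ≤ cp)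
    (hcm : 0 ≤ cm) (hup : 0 ≤ up) (hum : 0 ≤ um) (hwp : 0 ≤ wp) (hwm : 0 ≤ wm) (hω : 0 ≤ ω)
    (hu : up + um = cp + cm + ω + 1) (hw : wp + wm = a + b + ω)
    (hτdef : τ = up + wp - ω - b - cm) (hτ : 1 ≤ τ) :
    0 ≤ 4 * (a * cp + b * cm) - 2 * (τ * (τ - 1)) + 2 * ftr (-τ - b) + 2 * ftr (τ - a - 1)
        + 2 * ftr (-τ - cm) + 2 * ftr (τ - cp - 1)
        - 2 * fRc b (cm - wp) (up - ω) - 2 * fRc a (cp - wm) (um - ω)
        - 2 * fRc cm (b - up) (wp - ω) - 2 * fRc cp (a - um) (wm - ω) := by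
  have h1 := far_B1 b cm up wp ω hb hcm hup hwp hω (by omega)
  have h2 := far_B2 a cp um wm ω τ ha hcp hum hwm hω hτ (by omega)
  have h3 := ftr_refl (a - τ)
  have h4 := ftr_refl (cp - τ)
  have e3 : -1 - (a - τ) = τ - a - 1 := by ring
  have e4 : -1 - (cp - τ) = τ - cp - 1 := by ring
  rw [e3] at h3
  rw [e4] at h4
  have h5 := ftr_nonneg (-τ - b)
  have h6 := ftr_nonneg (-τ - cm)
  nlinarith [h1, h2, h3, h4, h5, h6]

theorem far_final_core (a b cp cm up um wp wm ω τ : ℤ) (ha : 0 ≤ a) (hb : 0 ≤ b) (hcp : 0 ≤ cp)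
    (hcm : 0 ≤ cm) (hup : 0 ≤ up) (hum : 0 ≤ um) (hwp : 0 ≤ wp) (hwm : 0 ≤ wm) (hω : 0 ≤ ω)
    (hu : up + um = cp + cm + ω + 1) (hw : wp + wm = a + b + ω)
    (hτdef : τ = up + wp - ω - b - cm) :
    0 ≤ 4 * (a * cp + b * cm) - 2 * (τ * (τ - 1)) + 2 * ftr (-τ - b) + 2 * ftr (τ - a - 1)
        + 2 * ftr (-τ - cm) + 2 * ftr (τ - cp - 1)
        - 2 * fRc b (cm - wp) (up - ω) - 2 * fRc a (cp - wm) (um - ω)
        - 2 * fRc cm (b - up) (wp - ω) - 2 * fRc cp (a - um) (wm - ω) := by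
  rcases le_or_gt 1 τ with h | h
  · exact far_final_pos a b cp cm up um wp wm ω τ ha hb hcp hcm hup hum hwp hwm hω hu hw hτdef h
  · have key := far_final_pos b a cm cp um up wm wp ω (1 - τ) hb ha hcm hcp hum hup hwm hwp hω
      (by linarith) (by linarith) (by linarith) (by omega)
    have e1 : -(1 - τ) - a = τ - a - 1 := by ring
    have e2 : 1 - τ - b - 1 = -τ - b := by ring
    have e3 : -(1 - τ) - cp = τ - cp - 1 := by ring
    have e4 : 1 - τ - cm - 1 = -τ - cm := by ring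
    rw [e1, e2, e3, e4] at key
    nlinarith [key]

theorem fpotC_expand (g a b om j Y xp xm A1 A2 A3 A4 A5 A6 A7 A8 A9 A10 A11 A12 : ℤ)
    (h1 : xm - Y = A1) (h2 : Y - xm - g - 1 = A2) (h3 : g - Y = A3) (h4 : -Y = A4)
    (h5 : Y - (j - g) - 1 = A5) (h6 : Y - j - 1 = A6) (h7 : om - a - xp = A7)
    (h8 : om - b - xm = A8) (h9 : om + 1 - Y = A9) (h10 : om + 1 - xm = A10)
    (h11 : om + Y - j = A11) (h12 : om + 1 - xp = A12) :
    fpotC g a b om j Y xp xm = -(2 * xp * xm) - 2 * ((Y - xm) * (Y - xm - g - 1)) - ftr g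
      + 2 * ftr A1 + 2 * ftr A2 + ftr A3 - ftr A4 + ftr A5 - ftr A6 + ftr om - ftr A7 - ftr A8
      - 2 * fRc b A9 A10 - 2 * fRc a A11 A12 := by
  subst h1 h2 h3 h4 h5 h6 h7 h8 h9 h10 h11 h12
  rfl

theorem far_final_int (a b cp cm up um wp wm ω o : ℤ) (ha : 0 ≤ a) (hb : 0 ≤ b) (hcp : 0 ≤ cp)
    (hcm : 0 ≤ cm) (hup : 0 ≤ up) (hum : 0 ≤ um) (hwp : 0 ≤ wp) (hwm : 0 ≤ wm) (hω : 0 ≤ ω)
    (hu : up + um = cp + cm + ω + 1) (hw : wp + wm = a + b + ω) (ho : o = max (a + b - 1) 0) :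
    0 ≤ fpotC (a + b) a b (cp + cm) (a + b + cp + cm + ω + 1) (cp + wp + 1) up um
        + fpotC (cp + cm) cp cm o (a + b + cp + cm + ω) (a + up) wp wm
        + 2 * (up * wp + um * wm) + 2 * (a * cp + b * cm) := by
  obtain ⟨τ, hτ⟩ : ∃ τ : ℤ, τ = up + wp - ω - b - cm := ⟨_, rfl⟩
  have hG := far_final_core a b cp cm up um wp wm ω τ ha hb hcp hcm hup hum hwp hwm hω hu hw hτ
  have eL := fpotC_expand (a + b) a b (cp + cm) (a + b + cp + cm + ω + 1) (cp + wp + 1) up um
    (-τ - b) (τ - a - 1) (a + b - 1 - cp - wp) (-(cp + wp + 1)) (a + b - 1 - cm - wm)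
    (-(cm + wm + 1)) (cp + cm - a - up) (cp + cm - b - um) (cm - wp) (up - ω) (cp - wm) (um - ω)
    (by linarith) (by linarith) (by ring) (by ring) (by linarith) (by linarith) (by ring)
    (by ring) (by ring) (by linarith) (by linarith) (by linarith)
  have z1 : ftr (-(cp + wp + 1)) = 0 := ftr_of_nonpos _ (by omega)
  have z2 : ftr (-(cm + wm + 1)) = 0 := ftr_of_nonpos _ (by omega)
  have z3 : ftr (-(a + up)) = 0 := ftr_of_nonpos _ (by omega)
  have z4 : ftr (-(b + um)) = 0 := ftr_of_nonpos _ (by omega)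
  rcases le_or_gt 1 (a + b) with hg | hg
  · have ho' : o = a + b - 1 := by omega
    subst ho'
    have eR := fpotC_expand (cp + cm) cp cm (a + b - 1) (a + b + cp + cm + ω) (a + up) wp wm
      (-τ - cm) (τ - cp - 1) (cp + cm - a - up) (-(a + up)) (cp + cm - b - um) (-(b + um))
      (a + b - 1 - cp - wp) (a + b - 1 - cm - wm) (b - up) (wp - ω) (a - um) (wm - ω)
      (by linarith) (by linarith) (by ring) (by ring) (by linarith) (by linarith) (by ring)
      (by ring) (by ring) (by linarith) (by linarith) (by linarith)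
    have s1 : ftr (a + b) = ftr (a + b - 1) + 2 * (a + b) := by
      rw [ftr_succ' (a + b - 1) (a + b) (by ring), max_eq_left (by omega)]
    rw [eL, eR, z1, z2, z3, z4, s1]
    subst hτ
    obtain rfl : um = cp + cm + ω + 1 - up := by linarith
    obtain rfl : wm = a + b + ω - wp := by linarith
    linear_combination hG
  · have ho' : o = 0 := by omega
    subst ho'
    have eR := fpotC_expand (cp + cm) cp cm 0 (a + b + cp + cm + ω) (a + up) wp wm
      (-τ - cm) (τ - cp - 1) (cp + cm - a - up) (-(a + up)) (cp + cm - b - um) (-(b + um))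
      (0 - cp - wp) (0 - cm - wm) (0 + 1 - (a + up)) (0 + 1 - wm)
      (0 + (a + up) - (a + b + cp + cm + ω)) (0 + 1 - wp)
      (by linarith) (by linarith) (by ring) (by ring) (by linarith) (by linarith) rfl
      rfl rfl rfl rfl rfl
    have s1 : ftr (a + b) = 0 := ftr_of_nonpos _ (by omega)
    have s2 : ftr (0 : ℤ) = 0 := ftr_of_nonpos _ (by omega)
    have s3 : ftr (a + b - 1 - cp - wp) = 0 := ftr_of_nonpos _ (by omega)
    have s4 : ftr (a + b - 1 - cm - wm) = 0 := ftr_of_nonpos _ (by omega)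
    have s5 : ftr (0 - cp - wp) = 0 := ftr_of_nonpos _ (by omega)
    have s6 : ftr (0 - cm - wm) = 0 := ftr_of_nonpos _ (by omega)
    have s7 : fRc cm (0 + 1 - (a + up)) (0 + 1 - wm) = 0 := fRc_of_le_one _ _ _ hcm (by omega)
    have s8 : fRc cp (0 + (a + up) - (a + b + cp + cm + ω)) (0 + 1 - wp) = 0 :=
      fRc_of_le_one _ _ _ hcp (by omega)
    have s9 : fRc cm (b - up) (wp - ω) = 0 := fRc_of_nonpos _ _ _ (by omega)
    have s10 : fRc cp (a - um) (wm - ω) = 0 := fRc_of_nonpos _ _ _ (by omega)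
    rw [s9, s10] at hG
    rw [eL, eR, z1, z2, z3, z4, s1, s2, s3, s4, s5, s6, s7, s8]
    have ha0 : a = 0 := by omega
    have hb0 : b = 0 := by omega
    subst ha0 hb0 hτ
    obtain rfl : um = cp + cm + ω + 1 - up := by linarith
    obtain rfl : wm = 0 + 0 + ω - wp := by linarith
    linear_combination hG

/-- Final inequality: the end potentials of the two half sweeps are paid for by the crossings
across the centre and by the crossings of the outer edges. -/
theorem far_final (g N : ℕ) (h a b cp cm up um wp wm : ℤ) (hgN : (g : ℤ) + N ≤ h)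
    (ha : 0 ≤ a) (hb : 0 ≤ b) (hab : a + b = g) (hcp : 0 ≤ cp) (hcm : 0 ≤ cm)
    (hc : cp + cm = N) (hup : 0 ≤ up) (hum : 0 ≤ um) (hu : up + um = h - g + 1)
    (hwp : 0 ≤ wp) (hwm : 0 ≤ wm) (hw : wp + wm = h - N) :
    0 ≤ fpot g (h - N) a b (h + 1) (cp + wp + 1) up um
        + fpot N (h - g) cp cm h (a + up) wp wm
        + 2 * (up * wp + um * wm) + 2 * (a * cp + b * cm) := by
  rw [fpot_closed g (h - N) a b (h + 1) (cp + wp + 1) up um ha (by omega) hb (by omega) hum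
      (by omega),
    fpot_closed N (h - g) cp cm h (a + up) wp wm hcp (by omega) hcm (by omega) hwm (by omega)]
  have key := far_final_int a b cp cm up um wp wm (h - g - N) (max (h - 1 - (h - (g : ℤ))) 0)
    ha hb hcp hcm hup hum hwp hwm (by omega) (by omega) (by omega) (by omega)
  have e1 : max (h + 1 - 1 - (h - (N : ℤ))) 0 = cp + cm := by omega
  rw [e1, ← hab, ← hc]
  rw [← hab, ← hc] at key
  have e2 : a + b + cp + cm + (h - (a + b) - (cp + cm)) = h := by ring
  rw [e2] at key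
  exact key

end Vale.Agent.Lib.P040.TP.Gen
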