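import Vale.Agent.Lib.P040.TP.Gen.Far.HalfR
import Vale.Agent.Lib.P040.TP.Gen.Far.Final

namespace Vale.Agent.Lib.P040.TP.Gen

/-- The two-star inequality restricted to the columns between the two vertices. -/
theorem far_mid (h g g' : ℕ) (ε ε' : ℕ → ℤ) (hε : IsSign ε) (hε' : IsSign ε') (hg1 : 1 ≤ g)
    (hgn : g' + 1 ≤ 2 * h + 1) (hfar : g + h + 1 ≤ g') :
    ∑ j ∈ Finset.Ico g g', |prof (2 * h + 1) g ε j + prof (2 * h + 1) g' ε' j|
      ≤ ∑ k ∈ Finset.Ico g g', ∑ l ∈ Finset.Ico g k, (1 + ε k * ε' l)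
        + ∑ k ∈ Finset.Ico g' (2 * h + 1), ∑ l ∈ Finset.range g, (1 + ε k * ε' l) := by
  have hL := far_halfL h g g' (h + 1) ε ε' hε hε' hfar hgn (by omega) le_rfl
  have hR := far_halfR h g g' ε ε' hε hε' hg1 hfar hgn
  have hX := far_cross_split g (h + 1) g' (by omega) (by omega) ε ε'
  have hsplit := Finset.sum_Ico_consecutive
    (fun j => |prof (2 * h + 1) g ε j + prof (2 * h + 1) g' ε' j|)
    (show g ≤ h + 1 by omega) (show h + 1 ≤ g' by omega)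
  have hcx := rect_count (h + 1) g' g (h + 1) ε ε' hε hε'
  have hout := rect_count g' (2 * h + 1) 0 g ε ε' hε hε'
  rw [← Finset.range_eq_Ico] at hout
  -- the counts
  have hab := cnt_add g 0 (Nat.zero_le g) ε'
  have hc := cnt_add (2 * h + 1) g' (by omega) ε
  have hu := cnt_add (h + 1) g (by omega) ε'
  have hw := cnt_add g' (h + 1) (by omega) ε
  have hYL := cntp_split (h + 1) g' (2 * h + 1) (by omega) (by omega) ε
  have hYR := cntp_split 0 g (h + 1) (Nat.zero_le g) (by omega) ε'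
  have hN : ((2 * h + 1 - g' : ℕ) : ℤ) = 2 * (h : ℤ) + 1 - g' := by omega
  have hF := far_final g (2 * h + 1 - g') (h : ℤ) (cntp g ε' 0) (cntm g ε' 0)
    (cntp (2 * h + 1) ε g') (cntm (2 * h + 1) ε g') (cntp (h + 1) ε' g) (cntm (h + 1) ε' g)
    (cntp g' ε (h + 1)) (cntm g' ε (h + 1)) (by omega)
    (cntp_nonneg _ _ _) (cntm_nonneg _ _ _) (by simpa using hab)
    (cntp_nonneg _ _ _) (cntm_nonneg _ _ _) (by rw [hc, hN]; push_cast; ring)
    (cntp_nonneg _ _ _) (cntm_nonneg _ _ _) (by rw [hu]; push_cast; ring)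
    (cntp_nonneg _ _ _) (cntm_nonneg _ _ _) (by rw [hw, hN]; push_cast; ring)
  have e1 : (h : ℤ) - ((2 * h + 1 - g' : ℕ) : ℤ) = (g' : ℤ) - h - 1 := by rw [hN]; ring
  have e2 : cntp (2 * h + 1) ε (h + 1) - ((h : ℤ) - ((h + 1 : ℕ) : ℤ))
      = cntp (2 * h + 1) ε g' + cntp g' ε (h + 1) + 1 := by
    rw [hYL]; push_cast; ring
  have e3 : cntp (h + 1) ε' 0 = cntp g ε' 0 + cntp (h + 1) ε' g := hYR
  have e4 : ((h + 1 : ℕ) : ℤ) = (h : ℤ) + 1 := by push_cast; ring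
  rw [e1] at hF
  rw [e2, e4] at hL
  rw [e3] at hR
  rw [← hsplit, hX, hcx, hout]
  nlinarith [hL, hR, hF]

end Vale.Agent.Lib.P040.TP.Gen
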