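import Vale.Agent.Lib.P040.TP.Gen.Far.Zones
import Vale.Agent.Lib.P040.TP.Gen.Far.Mid

namespace Vale.Agent.Lib.P040.TP.Gen

/-- The two-star inequality for straddling pairs with at least `h + 1` points between the two
vertices. -/
theorem far_core (h g g' : ℕ) (ε ε' : ℕ → ℤ) (hε : IsSign ε) (hε' : IsSign ε') (hg1 : 1 ≤ g)
    (hgn : g' + 1 ≤ 2 * h + 1) (hfar : g + h + 1 ≤ g') :
    ∑ j ∈ Finset.range (2 * h + 1), agree2 (2 * h + 1) g g' ε ε' j
      ≤ cross2 (2 * h + 1) g g' ε ε' :=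
  far_zones h g g' ε ε' hε hε' hg1 hgn hfar (far_mid h g g' ε ε' hε hε' hg1 hgn hfar)

end Vale.Agent.Lib.P040.TP.Gen
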