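import Vale.Agent.Lib.P040.TP.Gen.Far.Defs

/-!
# The far straddling case: closed forms of the potential

`fRc B C n` is twice the number of lattice points `(i, i')` with `1 ≤ i ≤ B`, `1 ≤ i' ≤ C`,
`i + i' ≤ n` (for `0 ≤ B`; the box is empty when `C ≤ 0`). The level sum and the corner sums of
the potential are evaluated in closed form, which turns the potential into an explicit
piecewise quadratic function `fpotC` of the state.
-/

namespace Vale.Agent.Lib.P040.TP.Gen

/-- Twice the number of lattice points `(i, i')` in `[1, B] × [1, C]` with `i + i' ≤ n`. -/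
def fRc (B C n : ℤ) : ℤ :=
  ftr (n - 1) - ftr (n - 1 - B) - ftr (n - 1 - max C 0) + ftr (n - 1 - B - max C 0)

/-- Closed form of twice the potential (window length `om` explicit). -/
def fpotC (g a b om j Y xp xm : ℤ) : ℤ :=
  -(2 * xp * xm) - 2 * ((Y - xm) * (Y - xm - g - 1)) - ftr g + 2 * ftr (xm - Y)
    + 2 * ftr (Y - xm - g - 1) + ftr (g - Y) - ftr (-Y) + ftr (Y - (j - g) - 1) - ftr (Y - j - 1)
    + ftr om - ftr (om - a - xp) - ftr (om - b - xm)
    - 2 * fRc b (om + 1 - Y) (om + 1 - xm) - 2 * fRc a (om + Y - j) (om + 1 - xp)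

theorem ftr_of_nonpos (k : ℤ) (hk : k ≤ 0) : ftr k = 0 := by
  unfold ftr
  rw [max_eq_right hk]
  ring

theorem ftr_of_nonneg (k : ℤ) (hk : 0 ≤ k) : ftr k = k * (k + 1) := by
  unfold ftr
  rw [max_eq_left hk]

theorem ftr_nonneg (k : ℤ) : 0 ≤ ftr k := by
  unfold ftr
  have h : (0 : ℤ) ≤ max k 0 := le_max_right _ _
  positivity

theorem ftr_succ (k : ℤ) : ftr (k + 1) = ftr k + 2 * max (k + 1) 0 := by
  rcases le_or_gt 0 k with h | h
  · rw [ftr_of_nonneg (k + 1) (by omega), ftr_of_nonneg k h, max_eq_left (by omega)]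
    ring
  · rw [ftr_of_nonpos (k + 1) (by omega), ftr_of_nonpos k (by omega), max_eq_right (by omega)]
    ring

/-- Reflection: `ftr k + ftr (-1 - k) = k (k + 1)`. -/
theorem ftr_refl (k : ℤ) : ftr k + ftr (-1 - k) = k * (k + 1) := by
  rcases le_or_gt 0 k with h | h
  · rw [ftr_of_nonneg k h, ftr_of_nonpos (-1 - k) (by omega)]
    ring
  · rw [ftr_of_nonpos k (by omega), ftr_of_nonneg (-1 - k) (by omega)]
    ring

theorem ftr_succ' (k k' : ℤ) (h : k' = k + 1) : ftr k' = ftr k + 2 * max k' 0 := by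
  subst h
  exact ftr_succ k

theorem fRc_succ (B C n : ℤ) :
    fRc B C (n + 1) = fRc B C n
      + 2 * (max n 0 - max (n - B) 0 - max (n - max C 0) 0 + max (n - B - max C 0) 0) := by
  unfold fRc
  rw [ftr_succ' (n - 1) (n + 1 - 1) (by ring), ftr_succ' (n - 1 - B) (n + 1 - 1 - B) (by ring),
    ftr_succ' (n - 1 - max C 0) (n + 1 - 1 - max C 0) (by ring),
    ftr_succ' (n - 1 - B - max C 0) (n + 1 - 1 - B - max C 0) (by ring)]
  simp only [add_sub_cancel_right]
  ring

theorem fRc_of_le_one (B C n : ℤ) (hB : 0 ≤ B) (hn : n ≤ 1) : fRc B C n = 0 := by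
  unfold fRc
  have hC : (0 : ℤ) ≤ max C 0 := le_max_right _ _
  rw [ftr_of_nonpos (n - 1) (by omega), ftr_of_nonpos (n - 1 - B) (by omega),
    ftr_of_nonpos (n - 1 - max C 0) (by omega), ftr_of_nonpos (n - 1 - B - max C 0) (by omega)]
  ring

/-- Closed form of the corner sum. -/
theorem fcorner_closed (g : ℕ) (s y : ℤ) (hs : 0 ≤ s) (hsg : s ≤ g) (m : ℕ) :
    2 * fcorner g s y m = fRc s (-y) (m + 1) := by
  induction m with
  | zero =>
    unfold fcorner
    rw [Finset.sum_range_zero, fRc_of_le_one s (-y) _ hs (by simp)]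
    ring
  | succ m ih =>
    have hstep : fcorner g s y (m + 1)
        = fcorner g s y m + max (min s ((m : ℤ) + 1) - fcl (y + m + 1) g) 0 := by
      unfold fcorner
      rw [Finset.sum_range_succ]
    rw [hstep, mul_add, ih]
    have h2 := fRc_succ s (-y) ((m : ℤ) + 1)
    have e : ((m + 1 : ℕ) : ℤ) + 1 = (m : ℤ) + 1 + 1 := by push_cast; ring
    rw [e, h2]
    unfold fcl
    have hm : (0 : ℤ) ≤ m := Int.natCast_nonneg m
    omega

/-- Closed form of the level sum. -/
theorem flevel_closed (g : ℕ) (Y p x : ℤ) (hx : 0 ≤ x) (hxp : x ≤ p) :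
    2 * flevel g Y p x = 2 * ((Y - x) * (Y - x - g - 1)) + ftr g - 2 * ftr (x - Y)
      - 2 * ftr (Y - x - g - 1) - ftr (g - Y) + ftr (-Y) - ftr (Y - p - 1)
      + ftr (Y - p - 1 - g) := by
  induction g with
  | zero =>
    unfold flevel
    rw [Finset.sum_range_zero]
    have h1 := ftr_refl (Y - x - 1)
    have e1 : -1 - (Y - x - 1) = x - Y := by ring
    rw [e1] at h1
    have h0 : ftr ((0 : ℕ) : ℤ) = 0 := ftr_of_nonpos _ (by simp)
    rw [h0]
    push_cast
    have e2 : Y - x - 0 - 1 = Y - x - 1 := by ring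
    have e3 : Y - p - 1 - 0 = Y - p - 1 := by ring
    have e4 : (0 : ℤ) - Y = -Y := by ring
    rw [e2, e3, e4]
    linear_combination (2 : ℤ) * h1
  | succ g ih =>
    have hstep : flevel (g + 1) Y p x = flevel g Y p x + |fcl (Y - 1 - g) p - x| := by
      unfold flevel
      rw [Finset.sum_range_succ]
    rw [hstep, mul_add, ih]
    have h1 := ftr_succ (g : ℤ)
    have h2 := ftr_succ (Y - x - (g + 1 : ℕ) - 1)
    have h3 := ftr_succ ((g : ℤ) - Y)
    have h4 := ftr_succ (Y - p - 1 - (g + 1 : ℕ))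
    have e1 : (((g + 1 : ℕ)) : ℤ) = (g : ℤ) + 1 := by push_cast; ring
    have e2 : Y - x - ((g + 1 : ℕ) : ℤ) - 1 + 1 = Y - x - g - 1 := by push_cast; ring
    have e3 : ((g + 1 : ℕ) : ℤ) - Y = (g : ℤ) - Y + 1 := by push_cast; ring
    have e4 : Y - p - 1 - ((g + 1 : ℕ) : ℤ) + 1 = Y - p - 1 - g := by push_cast; ring
    rw [e2] at h2
    rw [e4] at h4
    rw [e3, h3, e1, h1]
    have e5 : Y - x - ((g : ℤ) + 1) - 1 = Y - x - ((g + 1 : ℕ) : ℤ) - 1 := by push_cast; ring
    have e6 : Y - p - 1 - ((g : ℤ) + 1) = Y - p - 1 - ((g + 1 : ℕ) : ℤ) := by push_cast; ring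
    rw [e5, e6]
    have hpoly : (Y - x) * (Y - x - ((g + 1 : ℕ) : ℤ) - 1)
        = (Y - x) * (Y - x - g - 1) - (Y - x) := by push_cast; ring
    rw [hpoly]
    have hg : (0 : ℤ) ≤ g := Int.natCast_nonneg g
    have habs : |fcl (Y - 1 - g) p - x| = max (fcl (Y - 1 - g) p - x) (-(fcl (Y - 1 - g) p - x)) :=
      abs_eq_max_neg
    rw [habs]
    unfold fcl
    generalize (Y - x) * (Y - x - (g : ℤ) - 1) = P at *
    generalize ftr (Y - x - ((g + 1 : ℕ) : ℤ) - 1) = F1 at *
    generalize ftr (Y - p - 1 - ((g + 1 : ℕ) : ℤ)) = F2 at *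
    generalize ftr (Y - x - (g : ℤ) - 1) = F3 at *
    generalize ftr (Y - p - 1 - (g : ℤ)) = F4 at *
    generalize ftr ((g : ℤ) - Y) = F5 at *
    generalize ftr (g : ℤ) = F6 at *
    generalize ftr (x - Y) = F7 at *
    generalize ftr (-Y) = F8 at *
    generalize ftr (Y - p - 1) = F9 at *
    push_cast at *
    omega

/-- The potential in closed form. -/
theorem fpotAux_closed (g : ℕ) (a b om j Y xp xm : ℤ) (ha : 0 ≤ a) (hag : a ≤ g) (hb : 0 ≤ b)
    (hbg : b ≤ g) (hxm : 0 ≤ xm) (hxmp : xm ≤ j - g) :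
    fpotAux g a b om j Y xp xm = fpotC g a b om j Y xp xm := by
  unfold fpotAux fpotC
  have hl := flevel_closed g Y (j - g) xm hxm hxmp
  have hc1 := fcorner_closed g b (Y - om - 1) hb hbg (om - xm).toNat
  have hc2 := fcorner_closed g a (j - Y - om) ha hag (om - xp).toNat
  have e1 : -(Y - om - 1) = om + 1 - Y := by ring
  have e2 : -(j - Y - om) = om + Y - j := by ring
  rw [e1] at hc1
  rw [e2] at hc2
  have r1 : fRc b (om + 1 - Y) (((om - xm).toNat : ℤ) + 1) = fRc b (om + 1 - Y) (om + 1 - xm) := by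
    rcases le_or_gt xm om with h | h
    · have : ((om - xm).toNat : ℤ) = om - xm := Int.toNat_of_nonneg (by omega)
      rw [this]
      congr 1
      ring
    · have : ((om - xm).toNat : ℤ) = 0 := by
        have := Int.toNat_of_nonpos (show om - xm ≤ 0 by omega)
        simp [this]
      rw [this, fRc_of_le_one b _ _ hb (by norm_num), fRc_of_le_one b _ _ hb (by omega)]
  have r2 : fRc a (om + Y - j) (((om - xp).toNat : ℤ) + 1) = fRc a (om + Y - j) (om + 1 - xp) := by
    rcases le_or_gt xp om with h | h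
    · have : ((om - xp).toNat : ℤ) = om - xp := Int.toNat_of_nonneg (by omega)
      rw [this]
      congr 1
      ring
    · have : ((om - xp).toNat : ℤ) = 0 := by
        have := Int.toNat_of_nonpos (show om - xp ≤ 0 by omega)
        simp [this]
      rw [this, fRc_of_le_one a _ _ ha (by norm_num), fRc_of_le_one a _ _ ha (by omega)]
  rw [r1] at hc1
  rw [r2] at hc2
  have e3 : Y - (j - (g : ℤ)) - 1 - g = Y - j - 1 := by ring
  rw [e3] at hl
  linarith

/-- The potential in closed form. -/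
theorem fpot_closed (g : ℕ) (thp a b j Y xp xm : ℤ) (ha : 0 ≤ a) (hag : a ≤ g) (hb : 0 ≤ b)
    (hbg : b ≤ g) (hxm : 0 ≤ xm) (hxmp : xm ≤ j - g) :
    fpot g thp a b j Y xp xm = fpotC g a b (max (j - 1 - thp) 0) j Y xp xm := by
  unfold fpot
  exact fpotAux_closed g a b _ j Y xp xm ha hag hb hbg hxm hxmp

end Vale.Agent.Lib.P040.TP.Gen
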