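import Vale.Agent.Lib.P040.TP.Gen.Count
import Vale.Agent.Lib.P040.TP.Gen.MirrorA

namespace Vale.Agent.Lib.P040.TP.Gen

/-- Adding a point at the top of the range. -/
theorem cntp_top (n k : ℕ) (hk : k ≤ n) (ε : ℕ → ℤ) :
    cntp (n + 1) ε k = cntp n ε k + (if ε n = 1 then 1 else 0) := by
  unfold cntp
  rw [Finset.sum_Ico_succ_top hk]

/-- Adding a point at the top of the range. -/
theorem cntm_top (n k : ℕ) (hk : k ≤ n) (ε : ℕ → ℤ) :
    cntm (n + 1) ε k = cntm n ε k + (if ε n = 1 then 0 else 1) := by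
  unfold cntm
  rw [Finset.sum_Ico_succ_top hk]

/-- Splitting the range of a count. -/
theorem cntp_split (k m n : ℕ) (hkm : k ≤ m) (hmn : m ≤ n) (ε : ℕ → ℤ) :
    cntp n ε k = cntp m ε k + cntp n ε m := by
  unfold cntp
  rw [Finset.sum_Ico_consecutive _ hkm hmn]

/-- Splitting the range of a count. -/
theorem cntm_split (k m n : ℕ) (hkm : k ≤ m) (hmn : m ≤ n) (ε : ℕ → ℤ) :
    cntm n ε k = cntm m ε k + cntm n ε m := by
  unfold cntm
  rw [Finset.sum_Ico_consecutive _ hkm hmn]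

/-- Reflection of a sum over a range. -/
private lemma cnt_sum_rev (n A B : ℕ) (hAB : A ≤ B) (hBn : B ≤ n) (F : ℕ → ℤ) :
    ∑ l ∈ Finset.Ico A B, F (n - 1 - l) = ∑ l ∈ Finset.Ico (n - B) (n - A), F l := by
  apply Finset.sum_nbij' (fun l => n - 1 - l) (fun l => n - 1 - l)
  · intro l hl
    rw [Finset.mem_Ico] at hl ⊢
    omega
  · intro l hl
    rw [Finset.mem_Ico] at hl ⊢
    omega
  · intro l hl
    rw [Finset.mem_Ico] at hl
    omega
  · intro l hl
    rw [Finset.mem_Ico] at hl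
    omega
  · intro l _
    rfl

/-- Counts of the reflected sequence. -/
theorem cntp_rev (n A B : ℕ) (hAB : A ≤ B) (hBn : B ≤ n) (ε : ℕ → ℤ) :
    cntp B (rev n ε) A = cntp (n - A) ε (n - B) := by
  unfold cntp rev
  exact cnt_sum_rev n A B hAB hBn (fun l => if ε l = 1 then 1 else 0)

/-- Counts of the reflected sequence. -/
theorem cntm_rev (n A B : ℕ) (hAB : A ≤ B) (hBn : B ≤ n) (ε : ℕ → ℤ) :
    cntm B (rev n ε) A = cntm (n - A) ε (n - B) := by
  unfold cntm rev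
  exact cnt_sum_rev n A B hAB hBn (fun l => if ε l = 1 then 0 else 1)

/-- The number of points of a range is the sum of the two counts. -/
private lemma cnt_sum_one (A B : ℕ) (ε : ℕ → ℤ) :
    ∑ _k ∈ Finset.Ico A B, (1 : ℤ) = cntp B ε A + cntm B ε A := by
  unfold cntp cntm
  rw [← Finset.sum_add_distrib]
  apply Finset.sum_congr rfl
  intro l _
  split_ifs <;> simp

/-- The sum of the signs of a range is the difference of the two counts. -/
private lemma cnt_sum_sign (A B : ℕ) (ε : ℕ → ℤ) (hε : IsSign ε) :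
    ∑ k ∈ Finset.Ico A B, ε k = cntp B ε A - cntm B ε A :=
  (cnt_sub B A ε hε).symm

/-- The doubled number of equal pairs between two ranges, in count form. -/
theorem rect_count (A B C D : ℕ) (ε ε' : ℕ → ℤ) (hε : IsSign ε) (hε' : IsSign ε') :
    ∑ k ∈ Finset.Ico A B, ∑ l ∈ Finset.Ico C D, (1 + ε k * ε' l)
      = 2 * (cntp B ε A * cntp D ε' C + cntm B ε A * cntm D ε' C) := by
  have h1 : ∀ k ∈ Finset.Ico A B, ∑ l ∈ Finset.Ico C D, (1 + ε k * ε' l)
      = (cntp D ε' C + cntm D ε' C) + ε k * (cntp D ε' C - cntm D ε' C) := by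
    intro k _
    rw [Finset.sum_add_distrib, ← Finset.mul_sum, cnt_sum_one C D ε', cnt_sum_sign C D ε' hε']
  rw [Finset.sum_congr rfl h1, Finset.sum_add_distrib, ← Finset.sum_mul, cnt_sum_sign A B ε hε,
    Finset.sum_const, Finset.card_eq_sum_ones, nsmul_eq_mul]
  have h2 : ((∑ _k ∈ Finset.Ico A B, 1 : ℕ) : ℤ) = cntp B ε A + cntm B ε A := by
    rw [← cnt_sum_one A B ε]
    push_cast
    rfl
  rw [h2]
  ring

/-- Exchange of the order of summation over a triangle. -/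
private lemma cnt_triangle (m g' : ℕ) (F : ℕ → ℕ → ℤ) :
    ∑ k ∈ Finset.Ico m g', ∑ l ∈ Finset.Ico m k, F k l
      = ∑ l ∈ Finset.Ico m g', ∑ k ∈ Finset.Ico (l + 1) g', F k l := by
  apply Finset.sum_comm'
  intro k l
  simp only [Finset.mem_Ico]
  omega

/-- The crossings inside the middle zone, split at the centre column `m`. -/
theorem far_cross_split (g m g' : ℕ) (hgm : g ≤ m) (hmg : m ≤ g') (ε ε' : ℕ → ℤ) :
    ∑ k ∈ Finset.Ico g g', ∑ l ∈ Finset.Ico g k, (1 + ε k * ε' l)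
      = ∑ j ∈ Finset.Ico g m, ∑ l ∈ Finset.Ico g j, (1 + ε j * ε' l)
        + ∑ j ∈ Finset.Ico m g', ∑ k ∈ Finset.Ico (j + 1) g', (1 + ε k * ε' j)
        + ∑ k ∈ Finset.Ico m g', ∑ l ∈ Finset.Ico g m, (1 + ε k * ε' l) := by
  rw [← Finset.sum_Ico_consecutive _ hgm hmg]
  have h1 : ∀ k ∈ Finset.Ico m g', ∑ l ∈ Finset.Ico g k, (1 + ε k * ε' l)
      = ∑ l ∈ Finset.Ico g m, (1 + ε k * ε' l) + ∑ l ∈ Finset.Ico m k, (1 + ε k * ε' l) := by
    intro k hk
    rw [Finset.mem_Ico] at hk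
    rw [Finset.sum_Ico_consecutive _ hgm hk.1]
  rw [Finset.sum_congr rfl h1, Finset.sum_add_distrib,
    cnt_triangle m g' (fun k l => 1 + ε k * ε' l)]
  ring

end Vale.Agent.Lib.P040.TP.Gen
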