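import Vale.Agent.Lib.P040.TP.Gen.Far.Defs
import Vale.Agent.Lib.P040.TP.Gen.Count

namespace Vale.Agent.Lib.P040.TP.Gen

/-- The crossing sum of an edge of sign `η` with the second edges to the points `g, ..., j - 1`
is twice the number of those edges on the page of `η`. -/
private theorem far_col_sum (g j : ℕ) (ε' : ℕ → ℤ) (hε' : IsSign ε') (η : ℤ)
    (hη : η = 1 ∨ η = -1) :
    ∑ l ∈ Finset.Ico g j, (1 + η * ε' l)
      = 2 * (if η = 1 then cntp j ε' g else cntm j ε' g) := by
  unfold cntp cntm
  have hne : ¬ ((-1 : ℤ) = 1) := by decide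
  rcases hη with he | he
  · rw [he]
    simp only [if_true, one_mul]
    rw [Finset.mul_sum]
    apply Finset.sum_congr rfl
    intro l _
    rcases hε' l with hl | hl
    · rw [hl]
      simp only [if_true]
      norm_num
    · rw [hl]
      simp only [hne, if_false]
      norm_num
  · rw [he]
    simp only [hne, if_false]
    rw [Finset.mul_sum]
    apply Finset.sum_congr rfl
    intro l _
    rcases hε' l with hl | hl
    · rw [hl]
      simp only [if_true]
      norm_num
    · rw [hl]
      simp only [hne, if_false]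
      norm_num

/-- The profile of the first vertex in a column between it and the centre, in state form. -/
private theorem far_col_first (h g j : ℕ) (ε : ℕ → ℤ) (hε : IsSign ε) (hgj : g ≤ j)
    (hjh : j ≤ h) :
    prof (2 * h + 1) g ε j
      = ε j * ((j : ℤ) - 2 * frho g j (cntp (2 * h + 1) ε j - ((h : ℤ) - j)) (ε j)) := by
  have hj : j < 2 * h + 1 := by omega
  have hadd := cnt_add (2 * h + 1) (j + 1) (by omega) ε
  have hp := cntp_nonneg (2 * h + 1) (j + 1) ε
  have hm := cntm_nonneg (2 * h + 1) (j + 1) ε
  have hstep := cntp_step (2 * h + 1) j hj ε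
  unfold prof
  rw [phi_count h g j ε hε hgj hj, hstep]
  unfold frho fcl
  push_cast at hadd ⊢
  generalize cntp (2 * h + 1) ε (j + 1) = P at *
  generalize cntm (2 * h + 1) ε (j + 1) = Mm at *
  have hne : ¬ ((-1 : ℤ) = 1) := by decide
  rcases hε j with he | he
  · rw [he]
    simp only [if_true, one_mul]
    simp only [min_def, max_def]
    split_ifs <;> omega
  · rw [he]
    simp only [hne, if_false]
    simp only [min_def, max_def]
    split_ifs <;> omega

/-- The profile of the second vertex in a column left of it and left of the centre, in state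
form. -/
private theorem far_col_second (h g g' j : ℕ) (ε' : ℕ → ℤ) (hε' : IsSign ε')
    (hfar : g + h + 1 ≤ g') (hgj : g ≤ j) (hjh : j ≤ h) :
    prof (2 * h + 1) g' ε' j
      = ε' j * ((j : ℤ) - 2 * fmu ((g' : ℤ) - h - 1) (cntp g ε' 0) (cntm g ε' 0) j
          (cntp j ε' g) (cntm j ε' g) (ε' j)) := by
  have hnot : ¬ (g' ≤ j) := by omega
  have hpre : pre ε' j = cntp j ε' 0 - cntm j ε' 0 := by
    unfold pre
    rw [Finset.range_eq_Ico]
    exact (cnt_sub j 0 ε' hε').symm
  have hpsplit : cntp j ε' 0 = cntp g ε' 0 + cntp j ε' g := by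
    unfold cntp
    exact (Finset.sum_Ico_consecutive _ (Nat.zero_le g) hgj).symm
  have hmsplit : cntm j ε' 0 = cntm g ε' 0 + cntm j ε' g := by
    unfold cntm
    exact (Finset.sum_Ico_consecutive _ (Nat.zero_le g) hgj).symm
  have hadd1 := cnt_add g 0 (Nat.zero_le g) ε'
  have hadd2 := cnt_add j g hgj ε'
  have hpa := cntp_nonneg g 0 ε'
  have hma := cntm_nonneg g 0 ε'
  have hpx := cntp_nonneg j g ε'
  have hmx := cntm_nonneg j g ε'
  unfold prof phi
  rw [if_neg hnot, hpre, hpsplit, hmsplit]
  unfold dcol fmu
  push_cast at hadd1 hadd2 ⊢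
  generalize cntp g ε' 0 = a at *
  generalize cntm g ε' 0 = b at *
  generalize cntp j ε' g = xp at *
  generalize cntm j ε' g = xm at *
  have hne : ¬ ((-1 : ℤ) = 1) := by decide
  rcases hε' j with he | he
  · rw [he]
    simp only [if_true, one_mul]
    simp only [min_def, max_def]
    split_ifs <;> omega
  · rw [he]
    simp only [hne, if_false]
    simp only [min_def, max_def]
    split_ifs <;> omega

/-- Column identity: for a column between the first vertex and the centre, the doubled number of
crossings of its first edge with the earlier second edges minus the doubled agreement is the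
cost of the state reached before the column. -/
theorem far_col (h g g' j : ℕ) (ε ε' : ℕ → ℤ) (hε : IsSign ε) (hε' : IsSign ε')
    (hfar : g + h + 1 ≤ g') (hgn : g' + 1 ≤ 2 * h + 1) (hgj : g ≤ j) (hjh : j ≤ h) :
    ∑ l ∈ Finset.Ico g j, (1 + ε j * ε' l)
        - |prof (2 * h + 1) g ε j + prof (2 * h + 1) g' ε' j|
      = fcost g ((g' : ℤ) - h - 1) (cntp g ε' 0) (cntm g ε' 0) j
          (cntp (2 * h + 1) ε j - ((h : ℤ) - j)) (cntp j ε' g) (cntm j ε' g) (ε j) (ε' j) := by
  have _ := hgn
  rw [far_col_sum g j ε' hε' (ε j) (hε j), far_col_first h g j ε hε hgj hjh,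
    far_col_second h g g' j ε' hε' hfar hgj hjh]
  unfold fcost
  rfl

end Vale.Agent.Lib.P040.TP.Gen
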