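import Vale.Agent.Lib.P040.TP.Gen.Defs

/-!
# The far straddling case: state potential

Integer functions used for two vertices in gaps `g ≤ g'` with at least `h + 1` points between
them (`n = 2h + 1` points). The columns between the two vertices are swept from the first
vertex towards the centre. The state before column `j` consists of `Y` (number of `+1` edges of
the first vertex from point `j` on, minus `h - j`), and `xp`, `xm` (numbers of `+1` and `-1`
edges of the second vertex to the points `g, ..., j - 1`). The parameters `a`, `b` count the
`+1` and `-1` edges of the second vertex to the points left of the first vertex, and `thp` is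
the number of points right of the second vertex subtracted from `h`. All quantities are doubled.
-/

namespace Vale.Agent.Lib.P040.TP.Gen

/-- Clamp of `x` to the interval `[0, hi]`. -/
def fcl (x hi : ℤ) : ℤ := max 0 (min hi x)

/-- `k⁺ (k⁺ + 1)`: twice the triangular number of the positive part of `k`. -/
def ftr (k : ℤ) : ℤ := max k 0 * (max k 0 + 1)

/-- Corner sum: the sum of `(min(s, l) - clamp(y + l, 0, g))⁺` over `l = 1, ..., m`. -/
def fcorner (g : ℕ) (s y : ℤ) (m : ℕ) : ℤ :=
  ∑ l ∈ Finset.range m, max (min s ((l : ℤ) + 1) - fcl (y + l + 1) g) 0

/-- Level sum: the sum of `|clamp(Y - i, 0, p) - x|` over `i = 1, ..., g`. -/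
def flevel (g : ℕ) (Y p x : ℤ) : ℤ := ∑ i ∈ Finset.range g, |fcl (Y - 1 - i) p - x|

/-- Twice the potential, with the window length `om` as an explicit argument. -/
def fpotAux (g : ℕ) (a b om j Y xp xm : ℤ) : ℤ :=
  -(2 * xp * xm) - 2 * flevel g Y (j - g) xm + ftr om - ftr (om - a - xp) - ftr (om - b - xm)
    - 4 * fcorner g b (Y - om - 1) (om - xm).toNat - 4 * fcorner g a (j - Y - om) (om - xp).toNat

/-- Twice the potential of the state `(Y, xp, xm)` before column `j`. -/
def fpot (g : ℕ) (thp a b j Y xp xm : ℤ) : ℤ := fpotAux g a b (max (j - 1 - thp) 0) j Y xp xm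

/-- Number of cells of column `j` which the first vertex colours against its own edge `e`. -/
def frho (g : ℕ) (j Y e : ℤ) : ℤ := if e = 1 then fcl (j + 1 - Y) g else fcl Y g

/-- Number of cells of column `j` which the second vertex colours against its own edge `ep`. -/
def fmu (thp a b j xp xm ep : ℤ) : ℤ := min (if ep = 1 then b + xm else a + xp) (max (j - thp) 0)

/-- Twice the cost of column `j`: crossings of the edge `e` with the earlier edges of the second
vertex, minus the agreement of the two vertices in the column. -/
def fcost (g : ℕ) (thp a b j Y xp xm e ep : ℤ) : ℤ :=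
  2 * (if e = 1 then xp else xm)
    - |e * (j - 2 * frho g j Y e) + ep * (j - 2 * fmu thp a b j xp xm ep)|

end Vale.Agent.Lib.P040.TP.Gen
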