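import Vale.Agent.Lib.P040.TP.Gen.Far.Left
import Vale.Agent.Lib.P040.TP.Gen.Far.Col

namespace Vale.Agent.Lib.P040.TP.Gen

/-- The columns `g, ..., k - 1` (up to the centre): agreement plus end potential is at most the
doubled number of crossings counted at these columns. -/
theorem far_halfL (h g g' k : ℕ) (ε ε' : ℕ → ℤ) (hε : IsSign ε) (hε' : IsSign ε')
    (hfar : g + h + 1 ≤ g') (hgn : g' + 1 ≤ 2 * h + 1) (hgk : g ≤ k) (hk : k ≤ h + 1) :
    ∑ j ∈ Finset.Ico g k, |prof (2 * h + 1) g ε j + prof (2 * h + 1) g' ε' j|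
        + fpot g ((g' : ℤ) - h - 1) (cntp g ε' 0) (cntm g ε' 0) k
            (cntp (2 * h + 1) ε k - ((h : ℤ) - k)) (cntp k ε' g) (cntm k ε' g)
      ≤ ∑ j ∈ Finset.Ico g k, ∑ l ∈ Finset.Ico g j, (1 + ε j * ε' l) := by
  have hthp : (g : ℤ) ≤ (g' : ℤ) - h - 1 := by omega
  have hL := far_left h g ((g' : ℤ) - h - 1) ε ε' hε hε' hthp k hgk (by omega)
  have hC : ∑ j ∈ Finset.Ico g k, fcost g ((g' : ℤ) - h - 1) (cntp g ε' 0) (cntm g ε' 0) j
        (cntp (2 * h + 1) ε j - ((h : ℤ) - j)) (cntp j ε' g) (cntm j ε' g) (ε j) (ε' j)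
      = ∑ j ∈ Finset.Ico g k, (∑ l ∈ Finset.Ico g j, (1 + ε j * ε' l)
          - |prof (2 * h + 1) g ε j + prof (2 * h + 1) g' ε' j|) := by
    apply Finset.sum_congr rfl
    intro j hj
    rw [Finset.mem_Ico] at hj
    exact (far_col h g g' j ε ε' hε hε' hfar hgn hj.1 (by omega)).symm
  rw [hC, Finset.sum_sub_distrib] at hL
  linarith

end Vale.Agent.Lib.P040.TP.Gen
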