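import Vale.Agent.Lib.P040.TP.Gen.Far.HalfL

namespace Vale.Agent.Lib.P040.TP.Gen

/-- The agreement sum of the right half is the agreement sum of the reflected left half. -/
private lemma halfR_agree (h g g' : ℕ) (ε ε' : ℕ → ℤ) (hg1 : 1 ≤ g)
    (hfar : g + h + 1 ≤ g') (hgn : g' + 1 ≤ 2 * h + 1) :
    ∑ j ∈ Finset.Ico (h + 1) g', |prof (2 * h + 1) g ε j + prof (2 * h + 1) g' ε' j|
      = ∑ j ∈ Finset.Ico (2 * h + 1 - g') h,
          |prof (2 * h + 1) (2 * h + 1 - g') (rev (2 * h + 1) ε') j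
            + prof (2 * h + 1) (2 * h + 1 - g) (rev (2 * h + 1) ε) j| := by
  refine Finset.sum_nbij' (fun j => 2 * h + 1 - 1 - j) (fun j => 2 * h + 1 - 1 - j)
    ?_ ?_ ?_ ?_ ?_
  · intro j hj
    simp only [Finset.mem_Ico] at hj ⊢
    omega
  · intro j hj
    simp only [Finset.mem_Ico] at hj ⊢
    omega
  · intro j hj
    simp only [Finset.mem_Ico] at hj
    omega
  · intro j hj
    simp only [Finset.mem_Ico] at hj
    omega
  · intro j hj
    simp only [Finset.mem_Ico] at hj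
    rw [prof_mirror (2 * h + 1) g' ε' (by omega) j (by omega),
      prof_mirror (2 * h + 1) g ε (by omega) j (by omega), add_comm]

/-- The crossing sum of the right half is the crossing sum of the reflected left half. -/
private lemma halfR_cross (h g g' : ℕ) (ε ε' : ℕ → ℤ) (hg1 : 1 ≤ g)
    (hfar : g + h + 1 ≤ g') (hgn : g' + 1 ≤ 2 * h + 1) :
    ∑ j ∈ Finset.Ico (h + 1) g', ∑ k ∈ Finset.Ico (j + 1) g', (1 + ε k * ε' j)
      = ∑ j ∈ Finset.Ico (2 * h + 1 - g') h, ∑ l ∈ Finset.Ico (2 * h + 1 - g') j,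
          (1 + rev (2 * h + 1) ε' j * rev (2 * h + 1) ε l) := by
  refine Finset.sum_nbij' (fun j => 2 * h + 1 - 1 - j) (fun j => 2 * h + 1 - 1 - j)
    ?_ ?_ ?_ ?_ ?_
  · intro j hj
    simp only [Finset.mem_Ico] at hj ⊢
    omega
  · intro j hj
    simp only [Finset.mem_Ico] at hj ⊢
    omega
  · intro j hj
    simp only [Finset.mem_Ico] at hj
    omega
  · intro j hj
    simp only [Finset.mem_Ico] at hj
    omega
  · intro j hj
    simp only [Finset.mem_Ico] at hj
    refine Finset.sum_nbij' (fun k => 2 * h + 1 - 1 - k) (fun k => 2 * h + 1 - 1 - k)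
      ?_ ?_ ?_ ?_ ?_
    · intro k hk
      simp only [Finset.mem_Ico] at hk ⊢
      omega
    · intro k hk
      simp only [Finset.mem_Ico] at hk ⊢
      omega
    · intro k hk
      simp only [Finset.mem_Ico] at hk
      omega
    · intro k hk
      simp only [Finset.mem_Ico] at hk
      omega
    · intro k hk
      simp only [Finset.mem_Ico] at hk
      have e1 : 2 * h + 1 - 1 - (2 * h + 1 - 1 - j) = j := by omega
      have e2 : 2 * h + 1 - 1 - (2 * h + 1 - 1 - k) = k := by omega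
      unfold rev
      rw [e1, e2, mul_comm]

/-- The columns `h + 1, ..., g' - 1` (right of the centre), by reflection of the spine. -/
theorem far_halfR (h g g' : ℕ) (ε ε' : ℕ → ℤ) (hε : IsSign ε) (hε' : IsSign ε') (hg1 : 1 ≤ g)
    (hfar : g + h + 1 ≤ g') (hgn : g' + 1 ≤ 2 * h + 1) :
    ∑ j ∈ Finset.Ico (h + 1) g', |prof (2 * h + 1) g ε j + prof (2 * h + 1) g' ε' j|
        + fpot (2 * h + 1 - g') ((h : ℤ) - g) (cntp (2 * h + 1) ε g') (cntm (2 * h + 1) ε g') h
            (cntp (h + 1) ε' 0) (cntp g' ε (h + 1)) (cntm g' ε (h + 1))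
      ≤ ∑ j ∈ Finset.Ico (h + 1) g', ∑ k ∈ Finset.Ico (j + 1) g', (1 + ε k * ε' j) := by
  have key := far_halfL h (2 * h + 1 - g') (2 * h + 1 - g) h (rev (2 * h + 1) ε')
    (rev (2 * h + 1) ε) (rev_isSign _ _ hε') (rev_isSign _ _ hε) (by omega) (by omega)
    (by omega) (by omega)
  rw [cntp_rev (2 * h + 1) 0 (2 * h + 1 - g') (by omega) (by omega),
    cntm_rev (2 * h + 1) 0 (2 * h + 1 - g') (by omega) (by omega),
    cntp_rev (2 * h + 1) h (2 * h + 1) (by omega) (by omega),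
    cntp_rev (2 * h + 1) (2 * h + 1 - g') h (by omega) (by omega),
    cntm_rev (2 * h + 1) (2 * h + 1 - g') h (by omega) (by omega)] at key
  have e1 : 2 * h + 1 - 0 = 2 * h + 1 := Nat.sub_zero _
  have e2 : 2 * h + 1 - (2 * h + 1 - g') = g' := by omega
  have e3 : 2 * h + 1 - h = h + 1 := by omega
  have e4 : 2 * h + 1 - (2 * h + 1) = 0 := Nat.sub_self _
  have e5 : ((2 * h + 1 - g : ℕ) : ℤ) - h - 1 = (h : ℤ) - g := by omega
  rw [e1, e2, e3, e4, e5, sub_self, sub_zero] at key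
  rw [halfR_agree h g g' ε ε' hg1 hfar hgn, halfR_cross h g g' ε ε' hg1 hfar hgn]
  exact key

end Vale.Agent.Lib.P040.TP.Gen
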