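import Vale.Agent.Lib.P040.TP.Gen.Far.Step
import Vale.Agent.Lib.P040.TP.Gen.Far.Cnt

namespace Vale.Agent.Lib.P040.TP.Gen

/-- The potential of the initial state of the sweep vanishes. -/
private lemma left_base (g : ℕ) (thp a b Y : ℤ) (hg : (g : ℤ) ≤ thp) (ha : 0 ≤ a)
    (hb : 0 ≤ b) : fpot g thp a b g Y 0 0 = 0 := by
  have hom : max ((g : ℤ) - 1 - thp) 0 = 0 := max_eq_right (by linarith)
  have hlev : flevel g Y ((g : ℤ) - g) 0 = 0 := by
    unfold flevel
    apply Finset.sum_eq_zero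
    intro i _
    have hc : fcl (Y - 1 - i) ((g : ℤ) - g) = 0 := by
      unfold fcl
      rw [sub_self]
      omega
    rw [hc, sub_zero, abs_zero]
  have ht0 : ftr 0 = 0 := by
    unfold ftr
    rw [max_self, zero_mul]
  have hta : ftr (0 - a - 0) = 0 := by
    unfold ftr
    rw [max_eq_right (by linarith), zero_mul]
  have htb : ftr (0 - b - 0) = 0 := by
    unfold ftr
    rw [max_eq_right (by linarith), zero_mul]
  have hz : ((0 : ℤ) - 0).toNat = 0 := by
    rw [sub_zero, Int.toNat_zero]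
  have hc0 : ∀ s y : ℤ, fcorner g s y 0 = 0 := by
    intro s y
    unfold fcorner
    rw [Finset.range_zero, Finset.sum_empty]
  unfold fpot fpotAux
  rw [hom, hlev, ht0, hta, htb, hz, hc0, hc0]
  ring

/-- One column of the sweep. -/
private lemma left_succ (h g : ℕ) (thp : ℤ) (ε ε' : ℕ → ℤ) (hε : IsSign ε) (hε' : IsSign ε')
    (hg : (g : ℤ) ≤ thp) (k : ℕ) (hgk : g ≤ k) (hk : k + 1 ≤ 2 * h + 1) :
    fpot g thp (cntp g ε' 0) (cntm g ε' 0) ((k + 1 : ℕ) : ℤ)
        (cntp (2 * h + 1) ε (k + 1) - ((h : ℤ) - ((k + 1 : ℕ) : ℤ)))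
        (cntp (k + 1) ε' g) (cntm (k + 1) ε' g)
      ≤ fpot g thp (cntp g ε' 0) (cntm g ε' 0) k (cntp (2 * h + 1) ε k - ((h : ℤ) - k))
          (cntp k ε' g) (cntm k ε' g)
        + fcost g thp (cntp g ε' 0) (cntm g ε' 0) k
          (cntp (2 * h + 1) ε k - ((h : ℤ) - k)) (cntp k ε' g) (cntm k ε' g) (ε k) (ε' k) := by
  have hk' : k < 2 * h + 1 := by omega
  have hA := cntp_nonneg g 0 ε'
  have hB := cntm_nonneg g 0 ε'
  have hab : cntp g ε' 0 + cntm g ε' 0 = (g : ℤ) := by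
    have h0 := cnt_add g 0 (Nat.zero_le g) ε'
    rw [Nat.cast_zero, sub_zero] at h0
    exact h0
  have hxp := cntp_nonneg k g ε'
  have hxm := cntm_nonneg k g ε'
  have hj : cntp k ε' g + cntm k ε' g = (k : ℤ) - g := cnt_add k g hgk ε'
  have hst := cntp_step (2 * h + 1) k hk' ε
  have e2 : cntp (2 * h + 1) ε (k + 1) - ((h : ℤ) - ((k + 1 : ℕ) : ℤ))
      = (cntp (2 * h + 1) ε k - ((h : ℤ) - k)) + (if ε k = 1 then 0 else 1) := by
    rw [hst]
    push_cast
    split_ifs <;> ring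
  have hs := far_step g thp (cntp g ε' 0) (cntm g ε' 0) k
    (cntp (2 * h + 1) ε k - ((h : ℤ) - k)) (cntp k ε' g) (cntm k ε' g) (ε k) (ε' k)
    hg hA hB hab hxp hxm hj (hε k) (hε' k)
  rw [e2, cntp_top k g hgk ε', cntm_top k g hgk ε', Nat.cast_add_one]
  linarith

/-- Sweep of the columns `g, ..., k - 1`: the potential of the state reached is at most the sum
of the column costs. -/
theorem far_left (h g : ℕ) (thp : ℤ) (ε ε' : ℕ → ℤ) (hε : IsSign ε) (hε' : IsSign ε')
    (hg : (g : ℤ) ≤ thp) (k : ℕ) (hgk : g ≤ k) (hk : k ≤ 2 * h + 1) :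
    fpot g thp (cntp g ε' 0) (cntm g ε' 0) k (cntp (2 * h + 1) ε k - ((h : ℤ) - k))
        (cntp k ε' g) (cntm k ε' g)
      ≤ ∑ j ∈ Finset.Ico g k, fcost g thp (cntp g ε' 0) (cntm g ε' 0) j
          (cntp (2 * h + 1) ε j - ((h : ℤ) - j)) (cntp j ε' g) (cntm j ε' g) (ε j) (ε' j) := by
  revert hk
  induction k, hgk using Nat.le_induction with
  | base =>
    intro _
    have h1 : cntp g ε' g = 0 := by
      unfold cntp
      rw [Finset.Ico_self, Finset.sum_empty]
    have h2 : cntm g ε' g = 0 := by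
      unfold cntm
      rw [Finset.Ico_self, Finset.sum_empty]
    rw [Finset.Ico_self, Finset.sum_empty, h1, h2,
      left_base g thp _ _ _ hg (cntp_nonneg g 0 ε') (cntm_nonneg g 0 ε')]
  | succ k hgk ih =>
    intro hk
    have ih' := ih (by omega)
    have hs := left_succ h g thp ε ε' hε hε' hg k hgk hk
    rw [Finset.sum_Ico_succ_top hgk]
    linarith

end Vale.Agent.Lib.P040.TP.Gen
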