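import Vale.Agent.Lib.P040.TP.Gen.Far.Defs

namespace Vale.Agent.Lib.P040.TP.Gen

/-- One summand of the level difference. -/
private theorem stepOpp_term (p xm z : ℤ) (h0 : 0 ≤ xm) (h1 : xm ≤ p) :
    |fcl z (p + 1) - (xm + 1)| - |fcl z p - xm|
      = if z ≤ xm then 1 else if z ≤ p then -1 else 0 := by
  unfold fcl
  rcases abs_cases (max 0 (min (p + 1) z) - (xm + 1)) with ⟨e1, _⟩ | ⟨e1, _⟩ <;>
  rcases abs_cases (max 0 (min p z) - xm) with ⟨e2, _⟩ | ⟨e2, _⟩ <;>
  rw [e1, e2] <;> split_ifs <;> omega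

/-- Raising the upper end of a clamp by one. -/
private theorem stepOpp_fcl_succ (z : ℤ) (m : ℕ) :
    fcl z ((m : ℤ) + 1) = fcl z m + if (m : ℤ) + 1 ≤ z then 1 else 0 := by
  unfold fcl
  split_ifs <;> omega

/-- The level difference, summed over the first `m` levels. -/
private theorem stepOpp_level (Y p xm : ℤ) (h0 : 0 ≤ xm) (h1 : xm ≤ p) (m : ℕ) :
    ∑ i ∈ Finset.range m, (|fcl (Y - 1 - i) (p + 1) - (xm + 1)| - |fcl (Y - 1 - i) p - xm|)
      = (m : ℤ) - 2 * fcl (Y - 1 - xm) m + fcl (Y - 1 - p) m := by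
  induction m with
  | zero =>
    simp [fcl]
  | succ m ih =>
    rw [Finset.sum_range_succ, ih, stepOpp_term _ _ _ h0 h1]
    push_cast
    rw [stepOpp_fcl_succ, stepOpp_fcl_succ]
    split_ifs <;> omega

/-- Twice the triangular number vanishes at nonpositive arguments. -/
private theorem stepOpp_ftr_nonpos (k : ℤ) (hk : k ≤ 0) : ftr k = 0 := by
  unfold ftr
  rw [max_eq_right hk]
  ring

/-- The increment of twice the triangular number. -/
private theorem stepOpp_ftr_succ (k : ℤ) : ftr (k + 1) - ftr k = 2 * max (k + 1) 0 := by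
  unfold ftr
  rcases le_or_gt 0 k with h | h
  · rw [max_eq_left (by omega : (0 : ℤ) ≤ k + 1), max_eq_left h]
    ring
  · rw [max_eq_right (by omega : k + 1 ≤ 0), max_eq_right (by omega : k ≤ 0)]
    ring

/-- Lowering the offset of a corner sum does not decrease it. -/
private theorem stepOpp_corner_mono (g : ℕ) (s y : ℤ) (m : ℕ) :
    fcorner g s y m ≤ fcorner g s (y - 1) m := by
  unfold fcorner
  apply Finset.sum_le_sum
  intro l _
  unfold fcl
  omega

/-- Adding one summand to a corner sum. -/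
private theorem stepOpp_corner_succ (g : ℕ) (s y : ℤ) (m : ℕ) :
    fcorner g s y (m + 1)
      = fcorner g s y m + max (min s ((m : ℤ) + 1) - fcl (y + m + 1) g) 0 := by
  unfold fcorner
  rw [Finset.sum_range_succ]

/-- The corner sum over an empty range. -/
private theorem stepOpp_corner_zero (g : ℕ) (s y : ℤ) : fcorner g s y 0 = 0 := by
  unfold fcorner
  simp

/-- The difference of the two potentials, split into its parts. -/
private theorem stepOpp_diff (g : ℕ) (a b om om1 j Y xp xm : ℤ) :
    fpotAux g a b om1 (j + 1) Y xp (xm + 1) - fpotAux g a b om j Y xp xm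
      = -(2 * xp) - 2 * (flevel g Y (j + 1 - g) (xm + 1) - flevel g Y (j - g) xm)
        + (ftr om1 - ftr om) - (ftr (om1 - a - xp) - ftr (om - a - xp))
        - (ftr (om1 - b - (xm + 1)) - ftr (om - b - xm))
        - 4 * (fcorner g b (Y - om1 - 1) (om1 - (xm + 1)).toNat
              - fcorner g b (Y - om - 1) (om - xm).toNat)
        - 4 * (fcorner g a (j + 1 - Y - om1) (om1 - xp).toNat
              - fcorner g a (j - Y - om) (om - xp).toNat) := by
  unfold fpotAux
  ring

/-- Step inequality for a column whose first edge is `+1` and whose second edge is `-1`. -/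
theorem far_step_pm (g : ℕ) (thp a b j Y xp xm : ℤ) (hg : (g : ℤ) ≤ thp) (ha : 0 ≤ a)
    (hb : 0 ≤ b) (hab : a + b = g) (hxp : 0 ≤ xp) (hxm : 0 ≤ xm) (hj : xp + xm = j - g) :
    fpot g thp a b (j + 1) Y xp (xm + 1) - fpot g thp a b j Y xp xm
      ≤ fcost g thp a b j Y xp xm 1 (-1) := by
  have _hg := hg
  have hp0 : xm ≤ j - g := by omega
  have hlev : flevel g Y (j + 1 - g) (xm + 1) - flevel g Y (j - g) xm
      = (g : ℤ) - 2 * fcl (Y - 1 - xm) g + fcl (Y - 1 - (j - g)) g := by
    unfold flevel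
    rw [← Finset.sum_sub_distrib]
    have e : j + 1 - (g : ℤ) = j - g + 1 := by ring
    rw [e]
    exact stepOpp_level Y (j - g) xm hxm hp0 g
  have hcost : fcost g thp a b j Y xp xm 1 (-1)
      = 2 * xp - |1 * (j - 2 * fcl (j + 1 - Y) g)
          + -1 * (j - 2 * min (a + xp) (max (j - thp) 0))| := by
    unfold fcost frho fmu
    rw [if_pos rfl, if_pos rfl, if_neg (by decide)]
  have hL2 : fcl (Y - 1 - (j - g)) g = g - fcl (j + 1 - Y) g := by
    unfold fcl
    omega
  have hL1 : fcl (Y - 1 - xm) g = g - fcl (j + 1 - Y - xp) g := by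
    unfold fcl
    omega
  have hrZ : fcl (j + 1 - Y) g ≤ xp + fcl (j + 1 - Y - xp) g := by
    unfold fcl
    omega
  have hr0 : 0 ≤ fcl (j + 1 - Y) g := by
    unfold fcl
    omega
  have hz0 : 0 ≤ fcl (j + 1 - Y - xp) g := by
    unfold fcl
    omega
  rw [hcost]
  unfold fpot
  rcases le_or_gt j thp with hjt | hjt
  · have e1 : max (j + 1 - 1 - thp) 0 = 0 := by omega
    have e2 : max (j - 1 - thp) 0 = 0 := by omega
    rw [e1, e2, stepOpp_diff, hlev, hL1, hL2]
    have t2 : ftr (0 - a - xp) = 0 := stepOpp_ftr_nonpos _ (by omega)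
    have t3 : ftr (0 - b - (xm + 1)) = 0 := stepOpp_ftr_nonpos _ (by omega)
    have t4 : ftr (0 - b - xm) = 0 := stepOpp_ftr_nonpos _ (by omega)
    have n1 : (0 - (xm + 1)).toNat = 0 := by omega
    have n2 : (0 - xm).toNat = 0 := by omega
    have n3 : (0 - xp).toNat = 0 := by omega
    rw [t2, t3, t4, n1, n2, n3]
    simp only [stepOpp_corner_zero]
    generalize fcl (j + 1 - Y) g = r at hrZ hr0 ⊢
    generalize fcl (j + 1 - Y - xp) g = z at hrZ hz0 ⊢
    rw [le_sub_comm, abs_le]
    constructor <;> omega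
  · have e2 : max (j - 1 - thp) 0 = j - 1 - thp := by omega
    have e1 : max (j + 1 - 1 - thp) 0 = j - 1 - thp + 1 := by omega
    have e3 : max (j - thp) 0 = j - 1 - thp + 1 := by omega
    rw [e1, e2, e3, stepOpp_diff, hlev, hL1, hL2]
    have hom0 : 0 ≤ j - 1 - thp := by omega
    generalize j - 1 - thp = om at hom0 ⊢
    have f1 : ftr (om + 1) - ftr om = 2 * max (om + 1) 0 := stepOpp_ftr_succ om
    have f2 : ftr (om + 1 - a - xp) - ftr (om - a - xp) = 2 * max (om - a - xp + 1) 0 := by
      have e : om + 1 - a - xp = om - a - xp + 1 := by ring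
      rw [e]
      exact stepOpp_ftr_succ (om - a - xp)
    have f3 : ftr (om + 1 - b - (xm + 1)) - ftr (om - b - xm) = 0 := by
      have e : om + 1 - b - (xm + 1) = om - b - xm := by ring
      rw [e]
      ring
    have c1 : 0 ≤ fcorner g b (Y - (om + 1) - 1) (om + 1 - (xm + 1)).toNat
        - fcorner g b (Y - om - 1) (om - xm).toNat := by
      have e : om + 1 - (xm + 1) = om - xm := by ring
      have e' : Y - (om + 1) - 1 = Y - om - 1 - 1 := by ring
      rw [e, e']
      linarith [stepOpp_corner_mono g b (Y - om - 1) (om - xm).toNat]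
    have c2 : fcorner g a (j + 1 - Y - (om + 1)) (om + 1 - xp).toNat
        - fcorner g a (j - Y - om) (om - xp).toNat
        = if xp ≤ om then max (min a (om - xp + 1) - fcl (j + 1 - Y - xp) g) 0 else 0 := by
      have e : j + 1 - Y - (om + 1) = j - Y - om := by ring
      rw [e]
      split_ifs with h
      · have ht : (om + 1 - xp).toNat = (om - xp).toNat + 1 := by omega
        rw [ht, stepOpp_corner_succ]
        have hc : (((om - xp).toNat : ℕ) : ℤ) = om - xp := Int.toNat_of_nonneg (by omega)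
        rw [hc]
        have e3 : j - Y - om + (om - xp) + 1 = j + 1 - Y - xp := by ring
        rw [e3]
        ring
      · have ht1 : (om + 1 - xp).toNat = 0 := by omega
        have ht2 : (om - xp).toNat = 0 := by omega
        rw [ht1, ht2]
        ring
    rw [f1, f2, f3, c2]
    generalize fcorner g b (Y - (om + 1) - 1) (om + 1 - (xm + 1)).toNat
        - fcorner g b (Y - om - 1) (om - xm).toNat = db at c1 ⊢
    generalize fcl (j + 1 - Y) g = r at hrZ hr0 ⊢
    generalize fcl (j + 1 - Y - xp) g = z at hrZ hz0 ⊢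
    rw [le_sub_comm, abs_le]
    split_ifs with hx <;> constructor <;> omega

end Vale.Agent.Lib.P040.TP.Gen
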