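import Vale.Agent.Lib.P040.TP.Gen.Far.Defs

namespace Vale.Agent.Lib.P040.TP.Gen

/-- Raising the clamp bound from `p` to `p + 1` raises the level sum by the number of rows
above `p`. -/
private theorem stepSame_level_sum (Y p xm : ℤ) (hx0 : 0 ≤ xm) (hxp : xm ≤ p) (m : ℕ) :
    ∑ i ∈ Finset.range m, (|fcl (Y - 1 - i) (p + 1) - xm| - |fcl (Y - 1 - i) p - xm|)
      = fcl (Y - p - 1) m := by
  induction m with
  | zero =>
    unfold fcl
    simp only [Finset.range_zero, Finset.sum_empty, Nat.cast_zero]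
    omega
  | succ m ih =>
    rw [Finset.sum_range_succ, ih]
    unfold fcl
    rw [abs_eq_max_neg, abs_eq_max_neg]
    push_cast
    omega

private theorem stepSame_level (g : ℕ) (Y p xm : ℤ) (hx0 : 0 ≤ xm) (hxp : xm ≤ p) :
    flevel g Y (p + 1) xm - flevel g Y p xm = fcl (Y - p - 1) g := by
  unfold flevel
  rw [← Finset.sum_sub_distrib]
  exact stepSame_level_sum Y p xm hx0 hxp g

private theorem stepSame_ftr_nonpos (k : ℤ) (hk : k ≤ 0) : ftr k = 0 := by
  unfold ftr
  rw [max_eq_right hk]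
  ring

private theorem stepSame_ftr_succ (k : ℤ) : ftr (k + 1) - ftr k = 2 * max (k + 1) 0 := by
  unfold ftr
  by_cases hk : 0 ≤ k
  · rw [max_eq_left (by omega : (0 : ℤ) ≤ k + 1), max_eq_left hk]
    ring
  · rw [max_eq_right (by omega : k + 1 ≤ (0 : ℤ)), max_eq_right (by omega : k ≤ (0 : ℤ))]
    ring

private theorem stepSame_corner_zero (g : ℕ) (s y : ℤ) : fcorner g s y 0 = 0 := by
  unfold fcorner
  rw [Finset.range_zero, Finset.sum_empty]

private theorem stepSame_corner_nonneg (g : ℕ) (s y : ℤ) (m : ℕ) : 0 ≤ fcorner g s y m := by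
  unfold fcorner
  exact Finset.sum_nonneg (fun l _ => le_max_right _ _)

private theorem stepSame_corner_step (g : ℕ) (b y : ℤ) (m : ℕ) :
    fcorner g b y m ≤ fcorner g b (y - 1) (m + 1) := by
  unfold fcorner
  rw [Finset.sum_range_succ']
  refine le_trans (Finset.sum_le_sum (fun l _ => ?_))
    (le_add_of_nonneg_right (le_max_right _ _))
  push_cast
  have e : y - 1 + ((l : ℤ) + 1) + 1 = y + (l : ℤ) + 1 := by ring
  rw [e]
  omega

/-- The difference of the potentials when both window lengths vanish. -/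
private theorem stepSame_aux0 (g : ℕ) (a b j Y xp xm : ℤ) (ha : 0 ≤ a) (hxp : 0 ≤ xp)
    (hxm : 0 ≤ xm) (hj : xp + xm = j - g) :
    fpotAux g a b 0 (j + 1) Y (xp + 1) xm - fpotAux g a b 0 j Y xp xm
      = -2 * xm - 2 * fcl (Y - (j - g) - 1) g := by
  have h1 : ftr (0 - a - (xp + 1)) = 0 := stepSame_ftr_nonpos _ (by omega)
  have h2 : ftr (0 - a - xp) = 0 := stepSame_ftr_nonpos _ (by omega)
  have h3 : (0 - (xp + 1)).toNat = 0 := by omega
  have h4 : (0 - xp).toNat = 0 := by omega
  have hF := stepSame_level g Y (j - g) xm hxm (by omega)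
  have e : j + 1 - (g : ℤ) = j - g + 1 := by ring
  unfold fpotAux
  rw [h1, h2, h3, h4, stepSame_corner_zero, stepSame_corner_zero, e]
  linarith

/-- The difference of the potentials when the window length grows from `om` to `om + 1`. -/
private theorem stepSame_aux1 (g : ℕ) (a b j Y xp xm om : ℤ) (hom : 0 ≤ om) (hxp : 0 ≤ xp)
    (hxm : 0 ≤ xm) (hj : xp + xm = j - g) :
    fpotAux g a b (om + 1) (j + 1) Y (xp + 1) xm - fpotAux g a b om j Y xp xm
      ≤ -2 * xm - 2 * fcl (Y - (j - g) - 1) g + 2 * min (b + xm) (om + 1) := by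
  have hF := stepSame_level g Y (j - g) xm hxm (by omega)
  have e : j + 1 - (g : ℤ) = j - g + 1 := by ring
  have e1 : om + 1 - a - (xp + 1) = om - a - xp := by ring
  have e2 : j + 1 - Y - (om + 1) = j - Y - om := by ring
  have e3 : om + 1 - (xp + 1) = om - xp := by ring
  have e4 : om + 1 - b - xm = om - b - xm + 1 := by ring
  have e5 : Y - (om + 1) - 1 = Y - om - 1 - 1 := by ring
  have hT1 := stepSame_ftr_succ om
  have hT2 := stepSame_ftr_succ (om - b - xm)
  have hB : fcorner g b (Y - om - 1) (om - xm).toNat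
      ≤ fcorner g b (Y - om - 1 - 1) (om + 1 - xm).toNat := by
    by_cases hpos : 0 ≤ om - xm
    · have e6 : (om + 1 - xm).toNat = (om - xm).toNat + 1 := by omega
      rw [e6]
      exact stepSame_corner_step g b (Y - om - 1) (om - xm).toNat
    · have e6 : (om - xm).toNat = 0 := by omega
      rw [e6, stepSame_corner_zero]
      exact stepSame_corner_nonneg g b _ _
  have hmm : 2 * max (om + 1) 0 - 2 * max (om - b - xm + 1) 0 = 2 * min (b + xm) (om + 1) := by
    omega
  unfold fpotAux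
  rw [e, e1, e2, e3, e4, e5]
  linarith

private theorem stepSame_cost (g : ℕ) (thp a b j Y xp xm : ℤ) :
    fcost g thp a b j Y xp xm 1 1
      = 2 * xp - |(j - 2 * fcl (j + 1 - Y) g) + (j - 2 * min (b + xm) (max (j - thp) 0))| := by
  simp [fcost, frho, fmu]

/-- Step inequality for a column whose two edges are both `+1`. -/
theorem far_step_pp (g : ℕ) (thp a b j Y xp xm : ℤ) (hg : (g : ℤ) ≤ thp) (ha : 0 ≤ a)
    (hb : 0 ≤ b) (hab : a + b = g) (hxp : 0 ≤ xp) (hxm : 0 ≤ xm) (hj : xp + xm = j - g) :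
    fpot g thp a b (j + 1) Y (xp + 1) xm - fpot g thp a b j Y xp xm
      ≤ fcost g thp a b j Y xp xm 1 1 := by
  have _ := hab
  rw [stepSame_cost]
  unfold fpot
  by_cases hcase : j ≤ thp
  · have e1 : max (j + 1 - 1 - thp) 0 = 0 := by omega
    have e0 : max (j - 1 - thp) 0 = 0 := by omega
    rw [e1, e0, stepSame_aux0 g a b j Y xp xm ha hxp hxm hj]
    unfold fcl
    rw [abs_eq_max_neg]
    omega
  · have e1 : max (j + 1 - 1 - thp) 0 = j - 1 - thp + 1 := by omega
    have e0 : max (j - 1 - thp) 0 = j - 1 - thp := by omega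
    rw [e1, e0]
    refine le_trans (stepSame_aux1 g a b j Y xp xm (j - 1 - thp) (by omega) hxp hxm hj) ?_
    unfold fcl
    rw [abs_eq_max_neg]
    omega

end Vale.Agent.Lib.P040.TP.Gen
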