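import Vale.Agent.Lib.P040.TP.Gen.Far.StepSym
import Vale.Agent.Lib.P040.TP.Gen.Far.StepSame
import Vale.Agent.Lib.P040.TP.Gen.Far.StepOpp

namespace Vale.Agent.Lib.P040.TP.Gen

/-- Step inequality: along one column the potential grows by at most the cost of the column. -/
theorem far_step (g : ℕ) (thp a b j Y xp xm e ep : ℤ) (hg : (g : ℤ) ≤ thp) (ha : 0 ≤ a)
    (hb : 0 ≤ b) (hab : a + b = g) (hxp : 0 ≤ xp) (hxm : 0 ≤ xm) (hj : xp + xm = j - g)
    (he : e = 1 ∨ e = -1) (hep : ep = 1 ∨ ep = -1) :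
    fpot g thp a b (j + 1) (Y + (if e = 1 then 0 else 1)) (xp + (if ep = 1 then 1 else 0))
        (xm + (if ep = 1 then 0 else 1)) - fpot g thp a b j Y xp xm
      ≤ fcost g thp a b j Y xp xm e ep := by
  have hba : b + a = g := by omega
  have hj' : xm + xp = j - g := by omega
  rcases he with rfl | rfl <;> rcases hep with rfl | rfl
  · have key := far_step_pp g thp a b j Y xp xm hg ha hb hab hxp hxm hj
    simpa using key
  · have key := far_step_pm g thp a b j Y xp xm hg ha hb hab hxp hxm hj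
    simpa using key
  · have key := far_step_pm g thp b a j (j + 1 - Y) xm xp hg hb ha hba hxm hxp hj'
    have h1 := fpot_flip g thp a b j Y xp xm hxp hxm hj
    have h2 := fpot_flip g thp a b (j + 1) (Y + 1) (xp + 1) xm (by omega) hxm (by omega)
    have h3 := fcost_flip g thp a b j Y xp xm (-1) 1 (Or.inr rfl) (Or.inl rfl)
    have e1 : j + 1 + 1 - (Y + 1) = j + 1 - Y := by ring
    rw [e1] at h2
    simp only [neg_neg] at h3
    have goal_eq : fpot g thp a b (j + 1) (Y + (if (-1 : ℤ) = 1 then 0 else 1))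
        (xp + (if (1 : ℤ) = 1 then 1 else 0)) (xm + (if (1 : ℤ) = 1 then 0 else 1))
        = fpot g thp a b (j + 1) (Y + 1) (xp + 1) xm := by
      norm_num
    rw [goal_eq, h1, h2, h3]
    exact key
  · have key := far_step_pp g thp b a j (j + 1 - Y) xm xp hg hb ha hba hxm hxp hj'
    have h1 := fpot_flip g thp a b j Y xp xm hxp hxm hj
    have h2 := fpot_flip g thp a b (j + 1) (Y + 1) xp (xm + 1) hxp (by omega) (by omega)
    have h3 := fcost_flip g thp a b j Y xp xm (-1) (-1) (Or.inr rfl) (Or.inr rfl)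
    have e1 : j + 1 + 1 - (Y + 1) = j + 1 - Y := by ring
    rw [e1] at h2
    simp only [neg_neg] at h3
    have goal_eq : fpot g thp a b (j + 1) (Y + (if (-1 : ℤ) = 1 then 0 else 1))
        (xp + (if (-1 : ℤ) = 1 then 1 else 0)) (xm + (if (-1 : ℤ) = 1 then 0 else 1))
        = fpot g thp a b (j + 1) (Y + 1) xp (xm + 1) := by
      norm_num
    rw [goal_eq, h1, h2, h3]
    exact key

end Vale.Agent.Lib.P040.TP.Gen
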