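import Vale.Agent.Lib.P040.TP.Gen.Far.Defs

namespace Vale.Agent.Lib.P040.TP.Gen

/-- Reflection of the clamp: `clamp (p - t) = p - clamp t` on `[0, p]`. -/
private theorem stepSym_fcl (p t : ℤ) (hp : 0 ≤ p) : fcl (p - t) p = p - fcl t p := by
  unfold fcl
  rcases le_total t 0 with h1 | h1
  · rw [min_eq_left (by omega : p ≤ p - t), max_eq_right hp, min_eq_right (by omega : t ≤ p),
      max_eq_left h1]
    ring
  · rcases le_total t p with h2 | h2
    · rw [min_eq_right (by omega : p - t ≤ p), max_eq_right (by omega : (0 : ℤ) ≤ p - t),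
        min_eq_right h2, max_eq_right h1]
    · rw [min_eq_right (by omega : p - t ≤ p), max_eq_left (by omega : p - t ≤ 0),
        min_eq_left h2, max_eq_right hp]
      ring

/-- The level sum is invariant under the exchange of the two signs. -/
private theorem stepSym_flevel (g : ℕ) (j Y xp xm : ℤ) (hxp : 0 ≤ xp) (hxm : 0 ≤ xm)
    (hj : xp + xm = j - g) :
    flevel g Y (j - g) xm = flevel g (j + 1 - Y) (j - g) xp := by
  unfold flevel
  rw [← Finset.sum_range_reflect (fun i => |fcl (j + 1 - Y - 1 - (i : ℤ)) (j - (g : ℤ)) - xp|) g]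
  refine Finset.sum_congr rfl ?_
  intro i hi
  have hi' : i < g := Finset.mem_range.mp hi
  have hc : ((g - 1 - i : ℕ) : ℤ) = (g : ℤ) - 1 - i := by omega
  have hp : (0 : ℤ) ≤ j - g := by omega
  show |fcl (Y - 1 - (i : ℤ)) (j - (g : ℤ)) - xm|
    = |fcl (j + 1 - Y - 1 - ((g - 1 - i : ℕ) : ℤ)) (j - (g : ℤ)) - xp|
  rw [hc]
  have e1 : j + 1 - Y - 1 - ((g : ℤ) - 1 - i) = (j - (g : ℤ)) - (Y - 1 - i) := by ring
  rw [e1, stepSym_fcl (j - (g : ℤ)) (Y - 1 - i) hp]
  have e2 : j - (g : ℤ) - fcl (Y - 1 - i) (j - (g : ℤ)) - xp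
      = -(fcl (Y - 1 - i) (j - (g : ℤ)) - xm) := by
    rw [← hj]
    ring
  rw [e2, abs_neg]

/-- The potential is invariant under the exchange of the two signs. -/
theorem fpot_flip (g : ℕ) (thp a b j Y xp xm : ℤ) (hxp : 0 ≤ xp) (hxm : 0 ≤ xm)
    (hj : xp + xm = j - g) :
    fpot g thp a b j Y xp xm = fpot g thp b a j (j + 1 - Y) xm xp := by
  unfold fpot fpotAux
  rw [stepSym_flevel g j Y xp xm hxp hxm hj]
  have e1 : j + 1 - Y - max (j - 1 - thp) 0 - 1 = j - Y - max (j - 1 - thp) 0 := by ring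
  have e2 : j - (j + 1 - Y) - max (j - 1 - thp) 0 = Y - max (j - 1 - thp) 0 - 1 := by ring
  rw [e1, e2]
  ring

private theorem stepSym_frho (g : ℕ) (j Y e : ℤ) (he : e = 1 ∨ e = -1) :
    frho g j (j + 1 - Y) (-e) = frho g j Y e := by
  unfold frho
  have e1 : j + 1 - (j + 1 - Y) = Y := by ring
  rcases he with rfl | rfl
  · rw [if_neg (by norm_num : ¬ (-(1 : ℤ) = 1)), if_pos rfl]
  · rw [if_pos (by norm_num : (-(-1 : ℤ)) = 1), if_neg (by norm_num : ¬ ((-1 : ℤ) = 1)), e1]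

private theorem stepSym_fmu (thp a b j xp xm ep : ℤ) (hep : ep = 1 ∨ ep = -1) :
    fmu thp b a j xm xp (-ep) = fmu thp a b j xp xm ep := by
  unfold fmu
  rcases hep with rfl | rfl
  · rw [if_neg (by norm_num : ¬ (-(1 : ℤ) = 1)), if_pos rfl]
  · rw [if_pos (by norm_num : (-(-1 : ℤ)) = 1), if_neg (by norm_num : ¬ ((-1 : ℤ) = 1))]

private theorem stepSym_first (xp xm e : ℤ) (he : e = 1 ∨ e = -1) :
    (if -e = 1 then xm else xp) = (if e = 1 then xp else xm) := by
  rcases he with rfl | rfl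
  · rw [if_neg (by norm_num : ¬ (-(1 : ℤ) = 1)), if_pos rfl]
  · rw [if_pos (by norm_num : (-(-1 : ℤ)) = 1), if_neg (by norm_num : ¬ ((-1 : ℤ) = 1))]

/-- The column cost is invariant under the exchange of the two signs. -/
theorem fcost_flip (g : ℕ) (thp a b j Y xp xm e ep : ℤ) (he : e = 1 ∨ e = -1)
    (hep : ep = 1 ∨ ep = -1) :
    fcost g thp a b j Y xp xm e ep = fcost g thp b a j (j + 1 - Y) xm xp (-e) (-ep) := by
  unfold fcost
  rw [stepSym_frho g j Y e he, stepSym_fmu thp a b j xp xm ep hep, stepSym_first xp xm e he]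
  have e1 : -e * (j - 2 * frho g j Y e) + -ep * (j - 2 * fmu thp a b j xp xm ep)
      = -(e * (j - 2 * frho g j Y e) + ep * (j - 2 * fmu thp a b j xp xm ep)) := by ring
  rw [e1, abs_neg]

end Vale.Agent.Lib.P040.TP.Gen
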