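import Vale.Agent.Lib.P040.TP.Gen.Split
import Vale.Agent.Lib.P040.TP.Gen.Pure

namespace Vale.Agent.Lib.P040.TP.Gen

/-- A sum of signs over a range is bounded by the length of the range. -/
private theorem fz_abs_pre (ε : ℕ → ℤ) (hε : IsSign ε) (j : ℕ) : |pre ε j| ≤ (j : ℤ) := by
  unfold pre
  induction j with
  | zero => simp
  | succ j ih =>
    rw [Finset.sum_range_succ]
    have h1 : |ε j| = 1 := by
      rcases hε j with h | h <;> rw [h] <;> norm_num
    have h2 := abs_add_le (∑ l ∈ Finset.range j, ε l) (ε j)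
    push_cast
    omega

/-- A sum of signs over an interval is bounded by the length of the interval. -/
private theorem fz_abs_suf (n : ℕ) (ε : ℕ → ℤ) (hε : IsSign ε) (j : ℕ) (hj : j < n) :
    |suf n ε j| ≤ (n : ℤ) - 1 - j := by
  unfold suf
  have key : ∀ d k : ℕ, |∑ l ∈ Finset.Ico k (k + d), ε l| ≤ (d : ℤ) := by
    intro d
    induction d with
    | zero => intro k; simp
    | succ d ih =>
      intro k
      rw [show k + (d + 1) = (k + d) + 1 from rfl, Finset.sum_Ico_succ_top (by omega)]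
      have h1 : |ε (k + d)| = 1 := by
        rcases hε (k + d) with h | h <;> rw [h] <;> norm_num
      have h2 := abs_add_le (∑ l ∈ Finset.Ico k (k + d), ε l) (ε (k + d))
      have h3 := ih k
      push_cast
      omega
  have h4 := key (n - (j + 1)) (j + 1)
  rw [show j + 1 + (n - (j + 1)) = n by omega] at h4
  have h5 : ((n - (j + 1) : ℕ) : ℤ) = (n : ℤ) - 1 - j := by omega
  rw [h5] at h4
  exact h4

/-- Inner sum of the crossing count against a fixed sign, over a range. -/
private theorem fz_inner_left (ε : ℕ → ℤ) (e : ℤ) (j : ℕ) :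
    ∑ k ∈ Finset.range j, (1 + ε k * e) = (j : ℤ) + e * pre ε j := by
  unfold pre
  rw [Finset.sum_add_distrib, Finset.mul_sum]
  simp only [Finset.sum_const, Finset.card_range, nsmul_eq_mul, mul_one]
  congr 1
  exact Finset.sum_congr rfl (fun k _ => mul_comm _ _)

/-- Inner sum of the crossing count against a fixed sign, over an interval. -/
private theorem fz_inner_right (n : ℕ) (ε' : ℕ → ℤ) (e : ℤ) (j : ℕ) (hj : j < n) :
    ∑ l ∈ Finset.Ico (j + 1) n, (1 + e * ε' l) = ((n : ℤ) - 1 - j) + e * suf n ε' j := by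
  unfold suf
  rw [Finset.sum_add_distrib, Finset.mul_sum]
  simp only [Finset.sum_const, Nat.card_Ico, nsmul_eq_mul, mul_one]
  have h5 : ((n - (j + 1) : ℕ) : ℤ) = (n : ℤ) - 1 - j := by omega
  rw [h5]

/-- Left of both vertices the agreement equals the number of crossings, column by column. -/
theorem far_zone_left (h g g' j : ℕ) (ε ε' : ℕ → ℤ) (hε : IsSign ε) (hε' : IsSign ε')
    (hfar : g + h + 1 ≤ g') (hgn : g' + 1 ≤ 2 * h + 1) (hj : j < g) :
    agree2 (2 * h + 1) g g' ε ε' j = ∑ k ∈ Finset.range j, (1 + ε k * ε' j) := by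
  have hp := fz_abs_pre ε hε j
  have hp' := fz_abs_pre ε' hε' j
  rw [fz_inner_left, agree2, if_neg (by omega), prof_left_pure h g j ε hε (by omega) hj,
    dcol_left h j (by omega)]
  have h2 : prof (2 * h + 1) g' ε' j = ε' j * (j : ℤ) := by
    unfold prof phi
    rw [if_neg (by omega), dcol_left h j (by omega)]
    congr 1
    push_cast
    rcases hε' j with h1 | h1 <;> rw [h1] <;> simp only [abs_le] at hp' <;> omega
  rw [h2]
  rcases hε' j with h1 | h1 <;> rw [h1] <;> simp only [abs_le] at hp <;>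
    simp only [abs_eq_max_neg] <;> omega

/-- Right of both vertices the agreement equals the number of crossings, column by column. -/
theorem far_zone_right (h g g' j : ℕ) (ε ε' : ℕ → ℤ) (hε : IsSign ε) (hε' : IsSign ε')
    (hfar : g + h + 1 ≤ g') (hgn : g' + 1 ≤ 2 * h + 1) (hj : g' ≤ j) (hjn : j < 2 * h + 1) :
    agree2 (2 * h + 1) g g' ε ε' j
      = ∑ l ∈ Finset.Ico (j + 1) (2 * h + 1), (1 + ε j * ε' l) := by
  have hp := fz_abs_suf (2 * h + 1) ε hε j hjn
  have hp' := fz_abs_suf (2 * h + 1) ε' hε' j hjn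
  have hd : dcol (2 * h + 1) j = 2 * (h : ℤ) - j := by
    unfold dcol
    push_cast
    omega
  rw [fz_inner_right (2 * h + 1) ε' (ε j) j hjn, agree2, if_neg (by omega)]
  have h1 : prof (2 * h + 1) g ε j = ε j * (2 * (h : ℤ) - j) := by
    unfold prof phi
    rw [if_pos (by omega), hd]
    congr 1
    push_cast at hp ⊢
    rcases hε j with h1 | h1 <;> rw [h1] <;> simp only [abs_le] at hp <;> omega
  have h2 : prof (2 * h + 1) g' ε' j = suf (2 * h + 1) ε' j := by
    unfold prof phi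
    rw [if_pos hj, hd]
    push_cast at hp' ⊢
    rcases hε' j with h1 | h1 <;> rw [h1] <;> simp only [abs_le] at hp' <;> omega
  rw [h1, h2, hd]
  push_cast at hp' ⊢
  rcases hε j with h1 | h1 <;> rw [h1] <;> simp only [abs_le] at hp' <;>
    simp only [abs_eq_max_neg] <;> omega

/-- Reduction of the two-star inequality to the columns between the two vertices. -/
theorem far_zones (h g g' : ℕ) (ε ε' : ℕ → ℤ) (hε : IsSign ε) (hε' : IsSign ε') (hg1 : 1 ≤ g)
    (hgn : g' + 1 ≤ 2 * h + 1) (hfar : g + h + 1 ≤ g')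
    (hmid : ∑ j ∈ Finset.Ico g g', |prof (2 * h + 1) g ε j + prof (2 * h + 1) g' ε' j|
      ≤ ∑ k ∈ Finset.Ico g g', ∑ l ∈ Finset.Ico g k, (1 + ε k * ε' l)
        + ∑ k ∈ Finset.Ico g' (2 * h + 1), ∑ l ∈ Finset.range g, (1 + ε k * ε' l)) :
    ∑ j ∈ Finset.range (2 * h + 1), agree2 (2 * h + 1) g g' ε ε' j
      ≤ cross2 (2 * h + 1) g g' ε ε' := by
  have hg : g ≤ g' := by omega
  have hn : g' ≤ 2 * h + 1 := by omega
  rw [cross2_split (2 * h + 1) g g' hg hn ε ε', ← Finset.sum_range_add_sum_Ico _ hn,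
    ← Finset.sum_range_add_sum_Ico _ hg]
  have e1 : ∑ j ∈ Finset.range g, agree2 (2 * h + 1) g g' ε ε' j
      = ∑ l ∈ Finset.range g, ∑ k ∈ Finset.range l, (1 + ε k * ε' l) :=
    Finset.sum_congr rfl (fun j hj =>
      far_zone_left h g g' j ε ε' hε hε' hfar hgn (Finset.mem_range.mp hj))
  have e2 : ∑ j ∈ Finset.Ico g g', agree2 (2 * h + 1) g g' ε ε' j
      = ∑ j ∈ Finset.Ico g g', |prof (2 * h + 1) g ε j + prof (2 * h + 1) g' ε' j| := by
    refine Finset.sum_congr rfl (fun j hj => ?_)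
    obtain ⟨h1, h2⟩ := Finset.mem_Ico.mp hj
    unfold agree2
    rw [if_pos ⟨h1, h2⟩]
  have e3 : ∑ j ∈ Finset.Ico g' (2 * h + 1), agree2 (2 * h + 1) g g' ε ε' j
      = ∑ k ∈ Finset.Ico g' (2 * h + 1), ∑ l ∈ Finset.Ico (k + 1) (2 * h + 1),
          (1 + ε k * ε' l) :=
    Finset.sum_congr rfl (fun j hj =>
      far_zone_right h g g' j ε ε' hε hε' hfar hgn (Finset.mem_Ico.mp hj).1
        (Finset.mem_Ico.mp hj).2)
  rw [e1, e2, e3]
  linarith

end Vale.Agent.Lib.P040.TP.Gen
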